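import Vale.Agent.P150.Fast.Cavity.Ladder.Def
import Vale.Agent.P150.Fast.Cavity.Transfer
import Vale.Agent.P150.Fast.ChainKer

/-!
Basic facts of the ladder at zero field (P150): the disorder events, the kernels, a linear form of
the square root bounds, and the two-time bound for functions of small form.
-/

open MeasureTheory ProbabilityTheory Real Finset
open scoped Matrix

namespace Vale.Agent.P150.Fast.Ladder

variable {n : ℕ} {β : ℝ} {d : Dis n} {ν : Conf n → ℝ} {S : Finset (Fin n)}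

/-- What is used of the disorder: a norm event and a small diagonal. -/
structure GoodD (β ε : ℝ) (d : Dis n) : Prop where
  pd : (aop n β d).PosDef
  diag : ∀ i, aop n β d i i ≤ 6
  invLo : ∀ i, 1 / 6 ≤ (aop n β d)⁻¹ i i
  invHi : ∀ i, (aop n β d)⁻¹ i i ≤ 2
  k9 : ∀ v : Fin n → ℝ, ∑ i, (kmat n β d *ᵥ v) i ^ 2 ≤ 9 * ∑ i, v i ^ 2
  diagK : ∑ i, |kmat n β d i i| ≤ ε * n

/-- A prior: positive, of mass one. -/
structure Prior (ν : Conf n → ℝ) : Prop where
  pos : ∀ x, 0 < ν x
  sum : ∑ x, ν x = 1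

theorem nrm_psd (hA : (aop n β d).PosDef) (hν : ∀ x, 0 < ν x) (S : Finset (Fin n)) :
    IsPsdKer ν (nrm β d ν S) :=
  (kerThm n ν (stp β d S) hν hA).1

theorem slW_mem (κ u : ℝ) : 0 ≤ slW κ u ∧ slW κ u ≤ 1 :=
  ⟨sq_nonneg _, pow_le_one₀ (le_max_left _ _) (max_le zero_le_one (sub_le_self _ (sq_nonneg _)))⟩

theorem continuous_slW (κ : ℝ) : Continuous (slW κ) := by
  unfold slW bumpC; fun_prop

theorem slW_ge {κ u : ℝ} (hκ : 0 < κ) (hu : |u| ≤ κ / 2) : 1 / 2 ≤ slW κ u := by
  have h2 : (u / κ) ^ 2 ≤ 1 / 4 := by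
    rw [div_pow, div_le_iff₀ (by positivity), ← sq_abs u]
    nlinarith [mul_self_le_mul_self (abs_nonneg u) hu]
  rw [slW, bumpC, max_eq_right (by linarith)]
  nlinarith

/-- A lower bound on the mass of a slice. -/
noncomputable def slLow (κ : ℝ) : ℝ :=
  (gaussianReal 0 1).real (Set.Icc (-(κ / 4)) (κ / 4)) / 2

theorem slLow_pos {κ : ℝ} (hκ : 0 < κ) : 0 < slLow κ := by
  refine div_pos ?_ two_pos
  rw [measureReal_def, ENNReal.toReal_pos_iff]
  refine ⟨pos_iff_ne_zero.2 fun h => ?_, measure_lt_top _ _⟩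
  have h0 := gaussianReal_absolutelyContinuous' (μ := 0) one_ne_zero h
  rw [Real.volume_Icc, ENNReal.ofReal_eq_zero] at h0
  linarith

theorem slLow_le {κ : ℝ} (hκ : 0 < κ) {v : ℝ} (hv : v ≤ 2) :
    slLow κ ≤ nE 0 v (slW κ) := by
  have hi : Integrable (fun g => slW κ (0 + √v * g)) (gaussianReal 0 1) :=
    integrable_nE_of_bdd (continuous_slW κ) (M := 1)
      (fun u => by rw [abs_of_nonneg (slW_mem κ u).1]; exact (slW_mem κ u).2) 0 v
  rw [slLow, measureReal_def, ← measureReal_def, ← integral_indicator_one measurableSet_Icc, ← integral_div]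
  refine integral_mono (((integrable_const (1 : ℝ)).indicator measurableSet_Icc).div_const 2) hi fun g => ?_
  simp only [Set.indicator_apply, Pi.one_apply]
  split_ifs with h
  · refine slW_ge hκ ?_
    rw [zero_add, abs_mul, abs_of_nonneg (sqrt_nonneg v)]
    have h2 : √v ≤ 2 := (sqrt_le_left (by norm_num)).2 (by linarith)
    nlinarith [abs_le.2 h, abs_nonneg g]
  · rw [zero_div]; exact (slW_mem κ _).1

theorem slP_low {ε κ : ℝ} (hd : GoodD β ε d) (hκ : 0 < κ) (i : Fin n) : slLow κ ≤ slP β κ d i :=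
  slLow_le hκ (hd.invHi i)

theorem slP_le_one (κ : ℝ) (i : Fin n) : slP β κ d i ≤ 1 := by
  refine (integral_mono_of_nonneg (ae_of_all _ fun g => (slW_mem κ _).1) (integrable_const (1 : ℝ))
    (ae_of_all _ fun g => (slW_mem κ _).2)).trans_eq ?_
  simp

theorem frz_slice {ε κ : ℝ} (hd : GoodD β ε d) (hκ : 0 < κ) (S : Finset (Fin n)) (i : Fin n) (b : Bool) :
    SliceW ((stp β d S).freeze i) (onVal i b) (fun y => slW κ (sliceU (aop n β d) i b y))
      (slP β κ d i) 1 :=
  sliceW_of hd.pd 0 S i b (continuous_slW κ).measurable (fun u => (slW_mem κ u).1)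
    (fun u => (slW_mem κ u).2) ((slLow_pos hκ).trans_le (slP_low hd hκ i))

theorem frz_psd {ε κ : ℝ} (hd : GoodD β ε d) (hκ : 0 < κ) (hν : ∀ x, 0 < ν x) (S : Finset (Fin n))
    (i : Fin n) (b : Bool) : IsPsdKer (wb ν i b) (frz β d κ ν S i b) :=
  sliceKer_isPsd (s := (stp β d S).freeze i) hν hd.pd (frz_slice hd hκ S i b) (onVal_nonneg i b)
    (onVal_fib (stp β d S) i b)

theorem wb_nonneg (hν : ∀ x, 0 < ν x) (i : Fin n) (b : Bool) (x : Conf n) : 0 ≤ wb ν i b x :=
  mul_nonneg (onVal_nonneg i b x) (hν x).le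

theorem wb_le (hν : ∀ x, 0 < ν x) (i : Fin n) (b : Bool) (x : Conf n) : wb ν i b x ≤ ν x := by
  refine mul_le_of_le_one_left (hν x).le ?_
  rw [onVal]; split <;> norm_num

theorem wb_sum (hν : Prior ν) (i : Fin n) (b : Bool) : ∑ x, wb ν i b x ≤ 1 :=
  (sum_le_sum fun x _ => wb_le hν.pos i b x).trans_eq hν.sum

theorem ip_self_le {ι : Type} [Fintype ι] {w : ι → ℝ} (hw : ∀ x, 0 ≤ w x) (h1 : ∑ x, w x ≤ 1)
    {f : ι → ℝ} (hf : ∀ x, |f x| ≤ 1) : ip w f f ≤ 1 := by
  refine (sum_le_sum fun x _ => ?_).trans h1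
  rw [mul_assoc]
  refine mul_le_of_le_one_right (hw x) ?_
  have := (sq_le_one_iff_abs_le_one (f x)).2 (hf x)
  rwa [pow_two] at this

theorem sqrt_le_lin {a x : ℝ} (ha : 0 < a) (hx : 0 ≤ x) : √x ≤ a + x / a := by
  rw [sqrt_le_iff]
  have h : 0 ≤ x / a := div_nonneg hx ha.le
  have e : x / a * a = x := div_mul_cancel₀ x ha.ne'
  exact ⟨by linarith, by nlinarith⟩

/-- Powers contract the mean absolute value. -/
theorem pow_l1 {ι : Type} [Fintype ι] {w : ι → ℝ} {K : ι → ι → ℝ} (hK : IsPsdKer w K) (k : ℕ)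
    (f : ι → ℝ) : ∑ x, w x * |powOp K k f x| ≤ ∑ x, w x * |f x| := by
  rw [← ip_one_pow hK k fun z => |f z|]
  refine sum_le_sum fun x _ => mul_le_mul_of_nonneg_left ?_ (hK.wnn x)
  rw [abs_le]
  refine ⟨?_, powOp_mono hK k (fun z => le_abs_self _) x⟩
  have h := powOp_mono hK k (f := fun z => (-1) * |f z| + 0 * |f z|) (g := f)
    (fun z => by linarith [neg_abs_le (f z)]) x
  rw [powOp_lin] at h
  linarith

/-- A function of small form moves little between two times. -/
theorem two_time {ι : Type} [Fintype ι] {w : ι → ℝ} {K : ι → ι → ℝ} (hK : IsPsdKer w K)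
    (h1 : ∑ x, w x ≤ 1) (k : ℕ) (f : ι → ℝ) {a : ℝ} (ha : 0 < a) :
    ∑ x, w x * powOp K k (fun z => |f z - f x|) x ≤ a + k * kForm w K f / a := by
  have hpt : ∀ x, powOp K k (fun z => |f z - f x|) x
      ≤ a / 2 + (powOp K k (fun z => f z * f z) x - 2 * f x * powOp K k f x + f x * f x) / (2 * a) := by
    intro x
    have h := powOp_mono hK k (f := fun z => |f z - f x|)
      (g := fun z => (1 / (2 * a)) * (1 * (f z * f z) + (-2 * f x) * f z)
        + (a / 2 + f x * f x / (2 * a)) * (1 : ℝ)) (fun z => ?_) x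
    · rw [powOp_lin, powOp_lin, powOp_const hK] at h
      refine h.trans (le_of_eq ?_)
      ring
    · rw [show (1 / (2 * a)) * (1 * (f z * f z) + (-2 * f x) * f z) + (a / 2 + f x * f x / (2 * a)) * 1
          = (a ^ 2 + |f z - f x| ^ 2) / (2 * a) by rw [sq_abs]; field_simp; ring,
        le_div_iff₀ (by positivity)]
      nlinarith [sq_nonneg (a - |f z - f x|)]
  refine (sum_le_sum fun x _ => mul_le_mul_of_nonneg_left (hpt x) (hK.wnn x)).trans ?_
  have e1 : ∑ x, w x * powOp K k (fun z => f z * f z) x = ip w f f := by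
    rw [ip_one_pow hK]; exact sum_congr rfl fun x _ => by ring
  have e : ∀ x, w x * (a / 2
      + (powOp K k (fun z => f z * f z) x - 2 * f x * powOp K k f x + f x * f x) / (2 * a))
      = a / 2 * w x + (1 / (2 * a)) * (w x * powOp K k (fun z => f z * f z) x)
        - (1 / a) * (w x * f x * powOp K k f x) + (1 / (2 * a)) * (w x * f x * f x) := fun x => by
    field_simp; ring
  simp only [e, sum_add_distrib, sum_sub_distrib, ← mul_sum, e1]
  have hw : a / 2 * ∑ x, w x ≤ a / 2 := mul_le_of_le_one_right (by positivity) h1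
  have hg := ip_pow_gap hK k f
  change a / 2 * ∑ x, w x + 1 / (2 * a) * ip w f f - 1 / a * ip w f (powOp K k f)
    + 1 / (2 * a) * ip w f f ≤ _
  rw [show a / 2 * ∑ x, w x + 1 / (2 * a) * ip w f f - 1 / a * ip w f (powOp K k f)
    + 1 / (2 * a) * ip w f f
      = a / 2 * ∑ x, w x + (ip w f f - ip w f (powOp K k f)) / a by field_simp; ring]
  exact add_le_add (hw.trans (by linarith)) (div_le_div_of_nonneg_right hg ha.le)

/-- Powers and forms only see the support of the weight. -/
theorem kForm_congr {ι : Type} [Fintype ι] {w : ι → ℝ} {K : ι → ι → ℝ} (hK : IsPsdKer w K)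
    {f g : ι → ℝ} (h : ∀ x, w x ≠ 0 → f x = g x) : kForm w K f = kForm w K g := by
  have e1 : ip w f f = ip w g g := sum_congr rfl fun x _ => by
    by_cases hx : w x = 0
    · simp [hx]
    · rw [h x hx]
  have e2 : ip w f (powOp K 1 f) = ip w g (powOp K 1 g) := sum_congr rfl fun x _ => by
    by_cases hx : w x = 0
    · simp [hx]
    · rw [h x hx]
      congr 1
      refine sum_congr rfl fun z _ => ?_
      by_cases hz : w z = 0
      · have := hK.symm x z
        rw [hz, zero_mul, mul_eq_zero, or_iff_right hx] at this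
        rw [this, zero_mul, zero_mul]
      · rw [h z hz]
  rw [kForm, kForm, e1, e2]

theorem nE_shift_le {F : ℝ → ℝ} (hF : IsTest1 F) (a a' v v' : ℝ) :
    |nE a v F - nE a' v' F| ≤ |a - a'| + |√v - √v'| := by
  have hc : Continuous F := (LipschitzWith.of_dist_le_mul (K := 1) fun u w => by
    simpa [Real.dist_eq] using hF.2 u w).continuous
  have hg : Integrable (fun g : ℝ => |g|) (gaussianReal 0 1) :=
    ((memLp_id_gaussianReal 1).integrable le_rfl).abs
  have h1 : ∫ g, |g| ∂gaussianReal 0 1 ≤ 1 := by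
    have i2 : Integrable (fun g : ℝ => g ^ 2) (gaussianReal 0 1) := (memLp_id_gaussianReal 2).integrable_sq
    have e2 : ∫ g, g ^ 2 ∂gaussianReal 0 1 = 1 := by
      have h := variance_eq_integral (X := id) (μ := gaussianReal 0 1) (by fun_prop)
      simpa using h.symm.trans variance_id_gaussianReal
    refine (integral_mono hg (((integrable_const (1 : ℝ)).add i2).div_const 2) fun g => ?_).trans_eq ?_
    · simp only [Pi.add_apply]; nlinarith [sq_nonneg (|g| - 1), sq_abs g]
    · rw [integral_div, integral_add' (f := fun _ => (1 : ℝ)) (integrable_const 1) i2, e2]; simp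
  simp only [nE]
  rw [← integral_sub (integrable_nE_of_bdd hc hF.1 a v) (integrable_nE_of_bdd hc hF.1 a' v')]
  refine (norm_integral_le_of_norm_le (f := fun g => F (a + √v * g) - F (a' + √v' * g))
    (((integrable_const (|a - a'|)).add (hg.const_mul |√v - √v'|)))
    (ae_of_all _ fun g => ?_)).trans ?_
  · refine (hF.2 _ _).trans ?_
    rw [Pi.add_apply, ← abs_mul, show a + √v * g - (a' + √v' * g) = (a - a') + (√v - √v') * g by ring]
    exact abs_add_le _ _
  · rw [integral_add' (f := fun _ => |a - a'|) (integrable_const _) (hg.const_mul _), integral_const_mul]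
    simp only [integral_const, probReal_univ, one_smul]
    exact add_le_add le_rfl (mul_le_of_le_one_right (abs_nonneg _) h1)

end Vale.Agent.P150.Fast.Ladder
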