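import Vale.Agent.P150.Fast.Cavity.Ladder.Basic
import Vale.Agent.P150.Fast.Entropy.NormFacts
import Vale.Agent.P150.Fast.GoeNorm
import Vale.Agent.P150.Fast.LLMeanLaw

/-!
The disorder event of the ladder (P150) has high probability.
-/

open MeasureTheory ProbabilityTheory Real Finset Filter
open scoped Matrix

namespace Vale.Agent.P150.Fast.Ladder

variable {n : ℕ} {β ε : ℝ} {d : Dis n}

theorem inv_bounds (hA : (aop n β d).PosDef)
    (hlo : ∀ v : Fin n → ℝ, 1 / 2 * ∑ i, v i ^ 2 ≤ v ⬝ᵥ (aop n β d *ᵥ v)) (i : Fin n)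
    (h6 : aop n β d i i ≤ 6) : 1 / 6 ≤ (aop n β d)⁻¹ i i ∧ (aop n β d)⁻¹ i i ≤ 2 := by
  set A := aop n β d with hAdef
  set w := A⁻¹ *ᵥ Pi.single i 1 with hw
  set q := A⁻¹ i i with hq
  have hq0 : 0 < q := hA.inv.diag_pos
  have hwi : w i = q := by rw [hw, Matrix.mulVec_single_one, Matrix.col_apply]
  have hwq : w ⬝ᵥ (A *ᵥ w) = q := inv_quad hA i
  constructor
  · set u : Fin n → ℝ := Pi.single i 1 - (1 / q) • w with hu
    have h0 : 0 ≤ u ⬝ᵥ (A *ᵥ u) := le_trans (by positivity) (hlo u)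
    have e1 : A *ᵥ w = Pi.single i 1 := by
      rw [hw, Matrix.mulVec_mulVec, Matrix.mul_nonsing_inv _ (Ne.isUnit hA.det_pos.ne'), Matrix.one_mulVec]
    have e2 : w ⬝ᵥ (A *ᵥ Pi.single i 1) = 1 := by
      rw [hw, sym_inv_mulVec hA, Matrix.mulVec_mulVec, Matrix.nonsing_inv_mul _ (Ne.isUnit hA.det_pos.ne'),
        Matrix.one_mulVec, Pi.single_eq_same]
    rw [hu] at h0
    simp only [Matrix.mulVec_sub, Matrix.mulVec_smul, dotProduct_sub, sub_dotProduct, smul_dotProduct,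
      dotProduct_smul, smul_eq_mul, coord_quad, e2, hwq] at h0
    rw [e1, dot_single, Pi.single_eq_same, one_div_mul_cancel hq0.ne'] at h0
    have h7 : 1 / q ≤ 6 := by linarith
    rw [div_le_iff₀ hq0] at h7
    linarith
  · have h1 := hlo w
    rw [hwq] at h1
    have h2 := single_le_sum (f := fun j => w j ^ 2) (fun j _ => sq_nonneg _) (mem_univ i)
    rw [hwi] at h2
    nlinarith

theorem goodD_of (hβ0 : 0 ≤ β) (hβ1 : β < 1)
    (h : ∀ v, |Ent.qform (kmat n β d) v| ≤ (2 * β + 1 / 2) * ∑ i, v i ^ 2)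
    (hK : ∑ i, kmat n β d i i ^ 2 ≤ ε ^ 2 * n) (hε : 0 < ε) : GoodD β ε d := by
  obtain ⟨hA, hup, h9⟩ := Entropy.norm_facts hβ0 hβ1 h
  have hs : ∀ i : Fin n, ∑ j, (Pi.single i (1 : ℝ) : Fin n → ℝ) j ^ 2 = 1 := fun i => by
    simp [Pi.single_apply]
  have h6 : ∀ i, aop n β d i i ≤ 6 := fun i => by
    have := hup (Pi.single i 1)
    rwa [coord_quad, hs, mul_one] at this
  have hlo : ∀ v : Fin n → ℝ, 1 / 2 * ∑ i, v i ^ 2 ≤ v ⬝ᵥ (aop n β d *ᵥ v) := fun v => by
    rw [aop, Matrix.add_mulVec, Matrix.smul_mulVec, Matrix.one_mulVec, dotProduct_add, dotProduct_smul,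
      smul_eq_mul, ← qform_eq_dot, shift]
    have := (abs_le.1 (h v)).1
    have e : v ⬝ᵥ v = ∑ i, v i ^ 2 := by simp [dotProduct, pow_two]
    rw [e]
    linarith
  refine ⟨hA, h6, fun i => (inv_bounds hA hlo i (h6 i)).1, fun i => (inv_bounds hA hlo i (h6 i)).2, h9, ?_⟩
  have hi : ∀ i, |kmat n β d i i| ≤ ε / 2 + kmat n β d i i ^ 2 / (2 * ε) := fun i => by
    rw [div_add_div _ _ two_ne_zero (by positivity), le_div_iff₀ (by positivity)]
    nlinarith [sq_nonneg (|kmat n β d i i| - ε), sq_abs (kmat n β d i i)]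
  refine (sum_le_sum fun i _ => hi i).trans ?_
  rw [sum_add_distrib, sum_const, card_univ, Fintype.card_fin, nsmul_eq_mul, ← sum_div]
  have := div_le_div_of_nonneg_right hK (show 0 ≤ 2 * ε by linarith)
  rw [show ε ^ 2 * n / (2 * ε) = ε / 2 * n by field_simp] at this
  linarith

theorem eventually_small {c δ : ℝ} (hδ : 0 < δ) : ∀ᶠ n : ℕ in atTop, c / n ≤ δ := by
  have h := tendsto_const_div_atTop_nhds_zero_nat c
  exact h.eventually (eventually_le_nhds hδ)

/-- The event has high probability. -/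
theorem goodD_event (hβ0 : 0 ≤ β) (hβ1 : β < 1) (hε : 0 < ε) {δ : ℝ} (hδ : 0 < δ) :
    ∀ᶠ n : ℕ in atTop, (disX n).real {d | ¬ GoodD β ε d} ≤ δ := by
  obtain ⟨cN, hcN, hNev⟩ := normEvent β (1 / 2) hβ0 (by norm_num)
  have hexp : ∀ᶠ n : ℕ in atTop, exp (-(cN * n)) ≤ δ / 2 :=
    (tendsto_exp_atBot.comp (tendsto_neg_atTop_atBot.comp
      (tendsto_natCast_atTop_atTop.const_mul_atTop hcN))).eventually (eventually_le_nhds (half_pos hδ))
  filter_upwards [hNev, hexp, eventually_small (c := 2 * β ^ 2 / ε ^ 2) (half_pos hδ),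
    eventually_ge_atTop 1] with n hN hx hs hn
  have hn' : (0 : ℝ) < n := by exact_mod_cast hn
  set N1 : Set (Dis n) := {d | ¬ ∀ v, |Ent.qform (kmat n β d) v| ≤ (2 * β + 1 / 2) * ∑ i, v i ^ 2}
  set N2 : Set (Dis n) := {d | ε ^ 2 * n ≤ ∑ i, kmat n β d i i ^ 2}
  refine (measureReal_mono (s₂ := N1 ∪ N2) (fun d hd => ?_) (measure_ne_top _ _)).trans ?_
  · by_contra h
    simp only [Set.mem_union, not_or, N1, N2, Set.mem_ofPred_eq, not_not, not_le] at h
    exact hd (goodD_of hβ0 hβ1 h.1 h.2.le hε)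
  · have h2 : (disX n).real N2 ≤ δ / 2 := by
      have hint : Integrable (fun d : Dis n => ∑ i, kmat n β d i i ^ 2) (disX n) :=
        integrable_finsetSum _ fun i _ => (LL.kdiag_mean β i).1
      have hm := mul_meas_ge_le_integral_of_nonneg (μ := disX n)
        (ae_of_all _ fun d => sum_nonneg fun i (_ : i ∈ univ) => sq_nonneg (kmat n β d i i)) hint
        (ε ^ 2 * n)
      rw [integral_finsetSum _ fun i _ => (LL.kdiag_mean β i).1] at hm
      simp only [(LL.kdiag_mean β _).2, sum_const, card_univ, Fintype.card_fin, nsmul_eq_mul] at hm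
      rw [mul_comm, ← le_div_iff₀ (by positivity)] at hm
      refine hm.trans (le_trans (le_of_eq ?_) hs)
      field_simp
    linarith [measureReal_union_le (μ := disX n) N1 N2, hN.trans hx]

end Vale.Agent.P150.Fast.Ladder
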