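import Mathlib
import Vale.Agent.P150.Fast.Cavity.CoreStmt

/-!
The objects of the ladder from the core statement to the cavity picture
(P150): the free step, the frozen sliced steps, their values and the potentials.
-/

open MeasureTheory Real Finset Filter
open scoped Matrix

namespace Vale.Agent.P150.Fast

namespace Ladder

variable {n : ℕ}

/-- The step without a field. -/
noncomputable def stp (β : ℝ) (d : Dis n) (S : Finset (Fin n)) : Step n := ⟨aop n β d, 0, S⟩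

/-- The free step of `ν`. -/
noncomputable def nrm (β : ℝ) (d : Dis n) (ν : Conf n → ℝ) (S : Finset (Fin n)) :
    Conf n → Conf n → ℝ := kerOf (pR ν) (stp β d S)

/-- The weight of a slice. -/
noncomputable def slW (κ : ℝ) (u : ℝ) : ℝ := bumpC (u / κ)

/-- The mass of a slice. -/
noncomputable def slP (β κ : ℝ) (d : Dis n) (i : Fin n) : ℝ :=
  nE 0 ((aop n β d)⁻¹ i i) (slW κ)

/-- The sliced step with site `i` frozen at `b`. -/
noncomputable def frz (β : ℝ) (d : Dis n) (κ : ℝ) (ν : Conf n → ℝ) (S : Finset (Fin n)) (i : Fin n)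
    (b : Bool) : Conf n → Conf n → ℝ :=
  sliceKer ν ((stp β d S).freeze i) (onVal i b) (fun y => slW κ (sliceU (aop n β d) i b y))
    (slP β κ d i)

/-- The weight of the frozen step. -/
def wb (ν : Conf n → ℝ) (i : Fin n) (b : Bool) (x : Conf n) : ℝ := onVal i b x * ν x

/-- A test of the coupling field. -/
noncomputable def obs (β : ℝ) (d : Dis n) (F : ℝ → ℝ) (i : Fin n) (x : Conf n) : ℝ :=
  F (zField β d x i)

/-- The sliced value of a test, blind to the site. -/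
noncomputable def win (β : ℝ) (d : Dis n) (κ : ℝ) (ν : Conf n → ℝ) (S : Finset (Fin n)) (i : Fin n)
    (b : Bool) (F : ℝ → ℝ) (H : ℕ) (x : Conf n) : ℝ :=
  powOp (frz β d κ ν S i b) H (obs β d F i) (Function.update x i b)

/-- The variance after `k` steps. -/
noncomputable def rvar (β : ℝ) (d : Dis n) (ν : Conf n → ℝ) (S : Finset (Fin n)) (k : ℕ)
    (x : Conf n) : ℝ := farR β d 0 ν 0 S k x

/-- The potential of the spins and of the tests `Gs`. -/
noncomputable def pot (β : ℝ) (d : Dis n) (κ : ℝ) (ν : Conf n → ℝ) (S : Finset (Fin n))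
    (Gs : Finset (ℝ → ℝ)) (k : ℕ) : ℝ :=
  (n : ℝ)⁻¹ * (∑ i, ip ν (fun x => vec x i) (powOp (nrm β d ν S) k fun x => vec x i)
    + ∑ i ∈ Sᶜ, ∑ b : Bool, ∑ F ∈ Gs,
        ip (wb ν i b) (obs β d F i) (powOp (frz β d κ ν S i b) k (obs β d F i)))

/-- The distance of the sliced values from one normal law. -/
noncomputable def dev (β : ℝ) (d : Dis n) (κ : ℝ) (ν : Conf n → ℝ) (S : Finset (Fin n))
    (Gs : Finset (ℝ → ℝ)) (H : ℕ) (i : Fin n) (b : Bool) (x : Conf n) : ℝ :=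
  ⨅ a : ℝ, ∑ F ∈ Gs, |win β d κ ν S i b F H x - nE a (rvar β d ν S H x) F|

/-- A test as a test of the field and the external field. -/
def lift (F : ℝ → ℝ) : ℝ → ℝ → ℝ := fun u _ => F u

theorem slW_eq (κ : ℝ) : sliceFun 0 κ = slW κ := by
  funext u; simp [sliceFun, slW]

theorem priorAt_zero' (A : Matrix (Fin n) (Fin n) ℝ) {ν : Conf n → ℝ} (h1 : ∑ x, ν x = 1) :
    priorAt A 0 ν 0 = ν := by
  funext x
  simp [priorAt, lin, h1]

theorem fieldE_zero' {ν : Conf n → ℝ} (h1 : ∑ x, ν x = 1) (G : (Fin n → ℝ) → ℝ) :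
    fieldE 0 ν G = G 0 := by
  simp [fieldE, sideField, ← sum_mul, h1]

theorem farOp_zero (β : ℝ) (d : Dis n) {ν : Conf n → ℝ} (h1 : ∑ x, ν x = 1) (S : Finset (Fin n))
    (T : ℕ) (f : Conf n → ℝ) : farOp β d 0 ν 0 S T f = powOp (nrm β d ν S) T f := by
  simp only [farOp, sub_zero, one_smul, priorAt_zero' _ h1, nrm, stp]

theorem qFrz_zero (β : ℝ) (d : Dis n) (κ : ℝ) {ν : Conf n → ℝ} (h1 : ∑ x, ν x = 1)
    (S : Finset (Fin n)) (i : Fin n) (b : Bool) :
    qFrz β d 0 κ ν 0 S i b = frz β d κ ν S i b := by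
  simp only [qFrz, sub_zero, one_smul, priorAt_zero' _ h1, slW_eq, frz, stp, slP]

theorem pot_eq (β : ℝ) (d : Dis n) (κ : ℝ) {ν : Conf n → ℝ} (h1 : ∑ x, ν x = 1)
    (S : Finset (Fin n)) (Gs : Finset (ℝ → ℝ)) [DecidableEq (ℝ → ℝ → ℝ)] (k : ℕ) :
    potX β d 0 ν 0 S k + potW β d 0 κ ν 0 S (Gs.image lift) k = pot β d κ ν S Gs k := by
  have hinj : Set.InjOn lift (Gs : Set (ℝ → ℝ)) := fun F _ G _ h => funext fun u =>
    congrFun (congrFun h u) 0
  simp only [potX, potW, pot, farOp_zero β d h1, qFrz_zero β d κ h1, priorAt_zero' _ h1, mul_add,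
    sum_image hinj]
  rfl

theorem coreErr_zero (β : ℝ) (d : Dis n) (κ : ℝ) {ν : Conf n → ℝ} (h1 : ∑ x, ν x = 1)
    (S : Finset (Fin n)) (Gs : Finset (ℝ → ℝ)) [DecidableEq (ℝ → ℝ → ℝ)] (H : ℕ) :
    coreErr β d 0 κ ν S (Gs.image lift) H
      = (n : ℝ)⁻¹ * ∑ i ∈ Sᶜ, ∑ b : Bool, ∑ x, wb ν i b x * dev β d κ ν S Gs H i b x := by
  have hinj : Set.InjOn lift (Gs : Set (ℝ → ℝ)) := fun F _ G _ h => funext fun u =>
    congrFun (congrFun h u) 0
  simp only [coreErr, fieldE_zero' h1, priorAt_zero' _ h1, cellErr, winW, qFrz_zero β d κ h1,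
    sum_image hinj]
  rfl

end Ladder

end Vale.Agent.P150.Fast
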