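import Vale.Agent.P150.Fast.Cavity.Ladder.Gibbs

/-!
The two errors at a site, seen from far away, in terms of the core error, the drops of the potentials
and the forms of the smoothed values (P150).
-/

open MeasureTheory ProbabilityTheory Real Finset
open scoped Matrix

namespace Vale.Agent.P150.Fast.Ladder

variable {n : ℕ} {β ε κ : ℝ} {d : Dis n} {ν : Conf n → ℝ} {S : Finset (Fin n)}

theorem pb_nonneg (hd : GoodD β ε d) (hν : Prior ν) (T : ℕ) (i : Fin n) (b : Bool) (x : Conf n) :
    0 ≤ pb β d ν S T i b x :=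
  powOp_nonneg (nrm_psd hd.pd hν.pos S) T (onVal_nonneg i b) x

theorem pb_le_one (hd : GoodD β ε d) (hν : Prior ν) (T : ℕ) (i : Fin n) (b : Bool) (x : Conf n) :
    pb β d ν S T i b x ≤ 1 :=
  le_of_abs_le (powOp_abs_le (nrm_psd hd.pd hν.pos S) T
    (fun z => by rw [abs_of_nonneg (onVal_nonneg i b z), onVal]; split <;> norm_num) x)

theorem pb_sum (hd : GoodD β ε d) (hν : Prior ν) (T : ℕ) (i : Fin n) (x : Conf n) :
    pb β d ν S T i true x + pb β d ν S T i false x = 1 := by
  have e := congrFun (powOp_lin (nrm β d ν S) T (onVal i true) (onVal i false) 1 1) x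
  simp only [one_mul] at e
  rw [pb, pb, ← e, show (fun z => onVal i true z + onVal i false z) = fun _ => (1 : ℝ) from
    funext fun z => by cases hb : z i <;> simp [onVal, hb], powOp_const (nrm_psd hd.pd hν.pos S)]

theorem rvar_mem (hd : GoodD β ε d) (hν : Prior ν) (hβ : β ^ 2 ≤ 1) (k : ℕ) (x : Conf n) :
    0 ≤ rvar β d ν S k x ∧ rvar β d ν S k x ≤ 1 := by
  have hm : ∀ i, powOp (nrm β d ν S) k (fun y => vec y i) x ^ 2 ≤ 1 := fun i => by
    rw [sq_le_one_iff_abs_le_one]
    exact powOp_abs_le (nrm_psd hd.pd hν.pos S) k (fun w => abs_vec_le w i) x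
  simp only [rvar, farR, farQ, farMag, farOp_zero β d hν.sum]
  set q := (n : ℝ)⁻¹ * ∑ i, powOp (nrm β d ν S) k (fun y => vec y i) x ^ 2 with hq
  have hq0 : 0 ≤ q := mul_nonneg (by positivity) (sum_nonneg fun i _ => sq_nonneg _)
  have hq1 : q ≤ 1 := by
    rw [hq]
    refine (mul_le_mul_of_nonneg_left (sum_le_sum fun i (_ : i ∈ univ) => hm i) (by positivity)).trans ?_
    rw [sum_const, card_univ, Fintype.card_fin, nsmul_eq_mul, mul_one]
    exact inv_mul_le_one
  exact ⟨mul_nonneg (sq_nonneg β) (by linarith),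
    mul_le_one₀ hβ (by linarith) (by linarith)⟩

/-- The bound on the form of a smoothed value. -/
noncomputable def formB (ν : Conf n → ℝ) (i : Fin n) (H : ℕ) (B κ : ℝ) : ℝ :=
  slD B κ / (2 * H + 1) + 4 * lightMass ν i (exp (-(6 * B))) + 40 * exp (15 - B)

/-- The mean moves of the variance between levels and between times. -/
noncomputable def rMoves (β : ℝ) (d : Dis n) (ν : Conf n → ℝ) (S : Finset (Fin n)) (H T H' : ℕ) : ℝ :=
  ∑ x, ν x * |rvar β d ν S H x - rvar β d ν S H' x|
    + ∑ x, ν x * powOp (nrm β d ν S) T (fun z => |rvar β d ν S H' z - rvar β d ν S H' x|) x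
    + ∑ x, ν x * |rvar β d ν S T x - rvar β d ν S H' x|

/-- The values seen from afar lie near one normal law when the core error is small. -/
theorem dev_far (hd : GoodD β ε d) (hν : Prior ν) (hβ : β ^ 2 ≤ 1) (hκ : 0 < κ) (hκ1 : κ ≤ 1)
    {Gs : Finset (ℝ → ℝ)} (hG : ∀ F ∈ Gs, IsTest1 F) {i : Fin n} (hi : i ∉ S) (b : Bool)
    {H T H' : ℕ} (hH : H ≤ H') {B : ℝ} (hB : 1 ≤ B) {a : ℝ} (ha : 0 < a) :
    ∑ x, ν x * (pb β d ν S T i b x
        * devOf Gs (fun F => win β d κ ν S i b F H' x) (rvar β d ν S T x))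
      ≤ ∑ x, wb ν i b x * dev β d κ ν S Gs H i b x + Gs.card * (5 * a)
        + (∑ F ∈ Gs, (cw β d κ ν S i b F (2 * H) - cw β d κ ν S i b F (2 * H'))
            + Gs.card * (T * formB ν i H' B κ) + Gs.card * rMoves β d ν S H T H') / a := by
  have hK := nrm_psd hd.pd hν.pos S
  have hr := fun k x => (rvar_mem (S := S) hd hν hβ k x).1
  set g : ℝ := (Gs.card : ℝ) with hg
  set D : Conf n → ℝ := fun x => devOf Gs (fun F => win β d κ ν S i b F H' x) (rvar β d ν S H' x) with hD
  have hDT : ∀ x, pb β d ν S T i b x * devOf Gs (fun F => win β d κ ν S i b F H' x) (rvar β d ν S T x)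
      ≤ pb β d ν S T i b x * D x + g * a + g * (|rvar β d ν S T x - rvar β d ν S H' x| / a) := by
    intro x
    have h := devOf_lip hG (fun F => win β d κ ν S i b F H' x) (fun F => win β d κ ν S i b F H' x)
      (hr T x) (hr H' x) ha
    simp only [sub_self, abs_zero, sum_const_zero, add_zero] at h
    have h2 := mul_le_mul_of_nonneg_left h (pb_nonneg (S := S) hd hν T i b x)
    have k : pb β d ν S T i b x * (g * (a + |rvar β d ν S T x - rvar β d ν S H' x| / a))
        ≤ g * (a + |rvar β d ν S T x - rvar β d ν S H' x| / a) :=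
      mul_le_of_le_one_left (by positivity) (pb_le_one hd hν T i b x)
    rw [← hg] at h2
    simp only [hD, mul_add] at h2 k ⊢
    linarith
  have hpush : ∀ x, powOp (nrm β d ν S) T D x ≤ D x
      + (∑ F ∈ Gs, powOp (nrm β d ν S) T (fun z => |win β d κ ν S i b F H' z - win β d κ ν S i b F H' x|) x
        + g * a + g * (powOp (nrm β d ν S) T (fun z => |rvar β d ν S H' z - rvar β d ν S H' x|) x / a)) := by
    intro x
    have h := powOp_mono hK T (f := D) (g := fun z => 1 * (1 * (1 * ∑ F ∈ Gs,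
          |win β d κ ν S i b F H' z - win β d κ ν S i b F H' x|)
        + (g / a) * |rvar β d ν S H' z - rvar β d ν S H' x|) + (D x + g * a) * 1) (fun z => ?_) x
    · rw [powOp_lin, powOp_lin, powOp_const hK, powOp_sum] at h
      refine h.trans (le_of_eq ?_)
      ring
    · have := devOf_lip hG (fun F => win β d κ ν S i b F H' z) (fun F => win β d κ ν S i b F H' x)
        (hr H' z) (hr H' x) ha
      refine this.trans (le_of_eq ?_)
      simp only [hD]
      ring
  have e1 : ∑ x, ν x * (pb β d ν S T i b x * D x)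
      = ∑ x, wb ν i b x * powOp (nrm β d ν S) T D x := by
    have h := ip_pow_symm hK T (onVal i b) D
    simp only [ip] at h
    refine Eq.trans ?_ (h.symm.trans ?_)
    · exact sum_congr rfl fun x _ => by rw [pb]; ring
    · exact sum_congr rfl fun x _ => by rw [wb]; ring
  have hDH : ∀ x, D x ≤ dev β d κ ν S Gs H i b x
      + ∑ F ∈ Gs, |win β d κ ν S i b F H x - win β d κ ν S i b F H' x| + g * a
      + g * (|rvar β d ν S H x - rvar β d ν S H' x| / a) := by
    intro x
    have := devOf_lip hG (fun F => win β d κ ν S i b F H' x) (fun F => win β d κ ν S i b F H x)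
      (hr H' x) (hr H x) ha
    refine this.trans (le_of_eq ?_)
    rw [dev_eq, ← hg]
    simp only [abs_sub_comm (win β d κ ν S i b _ H' x), abs_sub_comm (rvar β d ν S H' x)]
    ring
  have hwν := wb_le (n := n) hν.pos i b
  have hw0 := wb_nonneg (n := n) hν.pos i b
  have hterm : ∀ x, wb ν i b x * powOp (nrm β d ν S) T D x
      ≤ wb ν i b x * dev β d κ ν S Gs H i b x
        + ∑ F ∈ Gs, wb ν i b x * |win β d κ ν S i b F H x - win β d κ ν S i b F H' x|
        + ∑ F ∈ Gs, ν x * powOp (nrm β d ν S) T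
            (fun z => |win β d κ ν S i b F H' z - win β d κ ν S i b F H' x|) x
        + 2 * g * a * ν x
        + g * (ν x * |rvar β d ν S H x - rvar β d ν S H' x|) / a
        + g * (ν x * powOp (nrm β d ν S) T (fun z => |rvar β d ν S H' z - rvar β d ν S H' x|) x) / a := by
    intro x
    have h := mul_le_mul_of_nonneg_left ((hpush x).trans (add_le_add (hDH x) le_rfl)) (hw0 x)
    simp only [mul_add, mul_sum] at h
    have g0 : 0 ≤ g := Nat.cast_nonneg _
    have p1 := mul_le_mul_of_nonneg_right (hwν x) (show 0 ≤ g * a by positivity)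
    have p2 := mul_le_mul_of_nonneg_right (hwν x)
      (show 0 ≤ g * (|rvar β d ν S H x - rvar β d ν S H' x| / a) by positivity)
    have p3 := mul_le_mul_of_nonneg_right (hwν x)
      (show 0 ≤ g * (powOp (nrm β d ν S) T (fun z => |rvar β d ν S H' z - rvar β d ν S H' x|) x / a) from
        mul_nonneg g0 (div_nonneg (powOp_nonneg hK T (fun z => abs_nonneg _) x) ha.le))
    have p4 := sum_le_sum fun F (_ : F ∈ Gs) => mul_le_mul_of_nonneg_right (hwν x)
      (powOp_nonneg hK T (fun z => abs_nonneg (win β d κ ν S i b F H' z - win β d κ ν S i b F H' x)) x)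
    refine h.trans ((add_le_add (add_le_add (add_le_add le_rfl p1) p2) (add_le_add (add_le_add p4 p1) p3)).trans
      (le_of_eq ?_))
    ring
  refine (sum_le_sum fun x _ => mul_le_mul_of_nonneg_left (hDT x) (hν.pos x).le).trans ?_
  simp only [mul_add, sum_add_distrib]
  rw [e1]
  refine (add_le_add (add_le_add (sum_le_sum fun x _ => hterm x) le_rfl) le_rfl).trans ?_
  simp only [sum_add_distrib]
  rw [sum_comm (f := fun x F => wb ν i b x * |win β d κ ν S i b F H x - win β d κ ν S i b F H' x|),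
    sum_comm (f := fun x F => ν x * powOp (nrm β d ν S) T
      (fun z => |win β d κ ν S i b F H' z - win β d κ ν S i b F H' x|) x),
    ← mul_sum, hν.sum, ← sum_div, ← mul_sum, ← sum_div, ← mul_sum, ← sum_mul, hν.sum]
  have s1 := sum_le_sum fun F (_ : F ∈ Gs) => win_close (S := S) hd hν hκ i b F hH ha
  have s2 := sum_le_sum fun F (hF : F ∈ Gs) => (two_time hK hν.sum.le T (win β d κ ν S i b F H') ha).trans
    (add_le_add le_rfl (div_le_div_of_nonneg_right
      (mul_le_mul_of_nonneg_left (blind_form hd hν hκ hκ1 hi b (hG F hF) H' hB) (Nat.cast_nonneg T)) ha.le))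
  rw [sum_add_distrib, sum_const, nsmul_eq_mul, ← sum_div, ← hg] at s1
  rw [sum_const, nsmul_eq_mul, ← hg] at s2
  have e3 : ∑ x, ν x * (g * (|rvar β d ν S T x - rvar β d ν S H' x| / a))
      = g * (∑ x, ν x * |rvar β d ν S T x - rvar β d ν S H' x|) / a := by
    rw [mul_sum, sum_div]; exact sum_congr rfl fun x _ => by ring
  rw [e3, rMoves, formB, add_div, add_div]
  simp only [mul_add, mul_div_assoc, add_div] at s2 ⊢
  linarith

/-- The distance of the far tests from the far chance times a normal mean, at one spin. -/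
theorem delta_far (hd : GoodD β ε d) (hν : Prior ν) (hβ : β ^ 2 ≤ 1) (hκ : 0 < κ) (hκ1 : κ ≤ 1)
    {Gs : Finset (ℝ → ℝ)} (hG : ∀ F ∈ Gs, IsTest1 F) {i : Fin n} (hi : i ∉ S) (b : Bool)
    {H T H' : ℕ} (hH : H ≤ H') {B : ℝ} (hB : 1 ≤ B) {a : ℝ} (ha : 0 < a) :
    ∑ x, ν x * (∑ F ∈ Gs, |far β d ν S T i b F x - pb β d ν S T i b x * win β d κ ν S i b F H' x|
        + pb β d ν S T i b x * (devOf Gs (fun F => win β d κ ν S i b F H' x) (rvar β d ν S T x) + a))
      ≤ ∑ x, wb ν i b x * dev β d κ ν S Gs H i b x + (Gs.card * 8 + 1) * a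
        + (Gs.card * (2 * H * (1 / slLow κ / (2 * T + 1)))
            + 2 * ∑ F ∈ Gs, (cw β d κ ν S i b F (2 * H) - cw β d κ ν S i b F (2 * H'))
            + Gs.card * (3 * (T * formB ν i H' B κ)) + Gs.card * rMoves β d ν S H T H') / a := by
  have h1 := dev_far (S := S) (H := H) (T := T) hd hν hβ hκ hκ1 hG hi b hH hB ha
  have h2 := sum_le_sum fun F (hF : F ∈ Gs) => (far_close (S := S) hd hν hκ i b (hG F hF) T hH ha).trans
    (add_le_add le_rfl (div_le_div_of_nonneg_right (add_le_add le_rfl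
      (mul_le_mul_of_nonneg_left (blind_form hd hν hκ hκ1 hi b (hG F hF) H' hB) (by positivity))) ha.le))
  rw [sum_comm] at h2
  simp only [sum_add_distrib, sum_const, nsmul_eq_mul, ← sum_div] at h2
  have h3 : ∑ x, ν x * (pb β d ν S T i b x * a) ≤ a := by
    refine (sum_le_sum fun x _ => mul_le_mul_of_nonneg_left
      (mul_le_of_le_one_left ha.le (pb_le_one hd hν T i b x)) (hν.pos x).le).trans_eq ?_
    rw [← sum_mul, hν.sum, one_mul]
  simp only [mul_add, mul_sum, sum_add_distrib]
  simp only [formB, mul_add, add_div, mul_div_assoc] at h1 h2 ⊢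
  rw [← mul_sum Gs _ (2 : ℝ), mul_div_assoc]
  linarith

/-- The exchange at a site, in both tests. -/
theorem exchange_both (hd : GoodD β ε d) (hν : Prior ν) {i : Fin n} (hi : i ∉ S) (T : ℕ) {M : ℝ}
    (hM : 1 ≤ M) {B a : ℝ} (hB : 1 ≤ B) (ha : 0 < a) :
    ∑ x, ν x * ∑ b' : Bool, |far β d ν S T i true (gT M (2 * spin b') false) x
        - far β d ν S T i false (gT M (2 * spin b') true) x|
      ≤ 2 * |kmat n β d i i| + 4 * a
        + 2 * (Ent.entSite (Ent.coupW (aop n β d) 0) (fun z => ν z / Ent.coupW (aop n β d) 0 z) i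
          + (2 + 2 * exp (8 * B + 12)) / (2 * T + 1)
          + 4 * (lightMass ν i (exp (-(6 * B))) + 2 * exp (3 - B))) / a := by
  have h := fun b' => exchange (S := S) hd hν hi T (M := M) (s := 2 * spin b') hM
    (by rw [abs_mul, Vale.Agent.P150.abs_spin, abs_two, mul_one]) hB ha
  simp only [Fintype.sum_bool, mul_add, sum_add_distrib]
  refine (add_le_add (h true) (h false)).trans (le_of_eq ?_)
  ring

end Vale.Agent.P150.Fast.Ladder
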