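import Vale.Agent.P150.Fast.Cavity.Ladder.Basic
import Vale.Agent.P150.Fast.Cavity.FlipInv
import Vale.Agent.P150.Fast.Cavity.PairL1
import Vale.Agent.P150.Fast.Chan

/-!
Forms at the ladder (P150): a smoothed frozen value has small form for the free step, and the
light mass is small on average.
-/

open MeasureTheory ProbabilityTheory Real Finset
open scoped Matrix

namespace Vale.Agent.P150.Fast.Ladder

variable {n : ℕ} {β ε : ℝ} {d : Dis n} {ν : Conf n → ℝ} {S : Finset (Fin n)}

/-- The comparison constant between the free and the frozen sliced form. -/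
noncomputable def slD (B κ : ℝ) : ℝ :=
  2 * exp (8 * B + 12) * (2 * (⌈20 * B / κ⌉₊ : ℝ) + 1) * (2 * exp (473 * B ^ 2))

theorem slD_nonneg (B κ : ℝ) : 0 ≤ slD B κ := by unfold slD; positivity

theorem win_flip (i : Fin n) (b : Bool) (F : ℝ → ℝ) (κ : ℝ) (H : ℕ) (x : Conf n) :
    win β d κ ν S i b F H (flipAt x i) = win β d κ ν S i b F H x := by
  simp [win, flipAt, Function.update_idem]

theorem win_supp (i : Fin n) (b : Bool) (F : ℝ → ℝ) (κ : ℝ) (H : ℕ) {x : Conf n}
    (hx : wb ν i b x ≠ 0) :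
    win β d κ ν S i b F H x = powOp (frz β d κ ν S i b) H (obs β d F i) x := by
  have : x i = b := by
    by_contra h
    exact hx (by simp [wb, onVal, h])
  rw [win, ← this, Function.update_eq_self]

theorem abs_win_le {κ : ℝ} (hd : GoodD β ε d) (hκ : 0 < κ) (hν : ∀ x, 0 < ν x) (i : Fin n) (b : Bool)
    {F : ℝ → ℝ} (hF : IsTest1 F) (H : ℕ) (x : Conf n) : |win β d κ ν S i b F H x| ≤ 1 :=
  powOp_abs_le (frz_psd hd hκ hν S i b) H (fun _ => hF.1 _) _

/-- A smoothed frozen value has small form for the free step. -/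
theorem blind_form {κ : ℝ} (hd : GoodD β ε d) (hν : Prior ν) (hκ : 0 < κ) (hκ1 : κ ≤ 1) {i : Fin n}
    (hi : i ∉ S) (b : Bool) {F : ℝ → ℝ} (hF : IsTest1 F) (H : ℕ) {B : ℝ} (hB : 1 ≤ B) :
    kForm ν (nrm β d ν S) (win β d κ ν S i b F H)
      ≤ slD B κ / (2 * H + 1) + 4 * lightMass ν i (exp (-(6 * B))) + 40 * exp (15 - B) := by
  set W := win β d κ ν S i b F H with hW
  have hA : (stp β d S).A.PosDef := hd.pd
  have hdiag : (stp β d S).A i i ≤ 6 := hd.diag i
  set N := ⌈20 * B / κ⌉₊ with hN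
  have hN1 : 20 * B / κ ≤ N := Nat.le_ceil _
  have hN2 : (N : ℝ) ≤ 20 * B / κ + 1 := (Nat.ceil_lt_add_one (by positivity)).le
  have hR1 : 10 * B ≤ N * (κ / 2) := by
    rw [div_le_iff₀ hκ] at hN1; linarith
  have hR2 : (N : ℝ) * (κ / 2) ≤ 11 * B := by
    have := mul_le_mul_of_nonneg_right hN2 hκ.le
    rw [add_mul, div_mul_cancel₀ _ hκ.ne', one_mul] at this
    linarith
  have h1 := normal_le_freeze (s := stp β d S) hν.pos hν.sum hA hi b (f := W) (M := 1)
    (win_flip i b F κ H) (abs_win_le hd hκ hν.pos i b hF H) (B := B) (exp_pos (-(6 * B))) zero_le_one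
  have h2 := freeze_le_slice (s := stp β d S) hν.pos hν.sum hA b (g := slW κ) (frz_slice hd hκ S i b)
    (fun u => (slW_mem κ u).1) (w0 := 1 / 2) (κ := κ / 2) (by norm_num) (half_pos hκ)
    (fun u hu => slW_ge hκ hu) (f := W) (F := 1) (abs_win_le hd hκ hν.pos i b hF H) N (B := 10 * B)
    zero_le_one zero_le_one
  have hQ := frz_psd hd hκ hν.pos S i b
  have h3 : slP β κ d i * kForm (wb ν i b) (frz β d κ ν S i b) W ≤ 1 / (2 * H + 1) := by
    refine (mul_le_of_le_one_left (kForm_nonneg hQ W) (slP_le_one κ i)).trans ?_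
    rw [kForm_congr hQ (g := powOp (frz β d κ ν S i b) H (obs β d F i)) fun x hx => win_supp i b F κ H hx]
    exact (smooth_form hQ H _).trans (div_le_div_of_nonneg_right
      (ip_self_le (wb_nonneg hν.pos i b) (wb_sum hν i b) fun x => hF.1 _) (by positivity))
  have hE : exp ((N : ℝ) * (κ / 2) * (10 * B) + ((N : ℝ) * (κ / 2)) ^ 2 * (stp β d S).A i i / 2)
      ≤ exp (473 * B ^ 2) := by
    refine exp_le_exp.2 ?_
    have r0 : 0 ≤ (N : ℝ) * (κ / 2) := by positivity
    have e1 := mul_le_mul_of_nonneg_right hR2 (show (0 : ℝ) ≤ 10 * B by linarith)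
    have e2 := pow_le_pow_left₀ r0 hR2 2
    linarith [mul_le_mul e2 hdiag hA.diag_pos.le (by positivity)]
  have ht1 : exp ((1 : ℝ) ^ 2 * (stp β d S).A i i / 2 - 1 * B) ≤ exp (3 - B) :=
    exp_le_exp.2 (by linarith)
  have ht2 : exp ((1 : ℝ) ^ 2 * (stp β d S).A i i / 2 - 1 * (10 * B)) ≤ exp (3 - 10 * B) :=
    exp_le_exp.2 (by linarith)
  have ht3 : exp ((1 : ℝ) ^ 2 * (stp β d S).A⁻¹ i i / 2 - 1 * (↑N * (κ / 2))) ≤ exp (3 - 10 * B) :=
    exp_le_exp.2 (by
      have : (stp β d S).A⁻¹ i i ≤ 2 := hd.invHi i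
      linarith)
  have hc : 1 + exp (2 * B + 2 * (stp β d S).A i i) / exp (-(6 * B)) ≤ 2 * exp (8 * B + 12) := by
    rw [div_eq_mul_inv, ← exp_neg, neg_neg, ← exp_add]
    have e1 : exp (2 * B + 2 * (stp β d S).A i i + 6 * B) ≤ exp (8 * B + 12) := exp_le_exp.2 (by linarith)
    linarith [one_le_exp (show 0 ≤ 8 * B + 12 by linarith)]
  have hfz : kForm (fun x => onVal i b x * ν x) (kerOf (pR ν) ((stp β d S).freeze i)) W
      ≤ (2 * N + 1) * (2 * exp (473 * B ^ 2)) * (1 / (2 * H + 1)) + 16 * exp (3 - 10 * B) := by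
    refine h2.trans (add_le_add (mul_le_mul ?_ h3 (mul_nonneg ((slLow_pos hκ).trans_le (slP_low hd hκ i)).le
      (kForm_nonneg hQ W)) (by positivity)) ?_)
    · refine mul_le_mul_of_nonneg_left ?_ (by positivity)
      rw [div_le_iff₀ (by norm_num : (0 : ℝ) < 1 / 2)]
      linarith
    · linarith
  have hf0 : 0 ≤ kForm (fun x => onVal i b x * ν x) (kerOf (pR ν) ((stp β d S).freeze i)) W := by
    rw [kForm_ker (s := (stp β d S).freeze i) hν.pos hA (onVal_fib (stp β d S) i b)]
    exact integral_nonneg fun y =>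
      cvY_nonneg (s := (stp β d S).freeze i) hν.pos hA (onVal_nonneg i b) W y
  simp only [one_mul] at h1
  refine h1.trans ?_
  simp only [one_mul] at ht1
  have key := mul_le_mul hc hfz hf0 (by positivity)
  have e3 : exp (8 * B + 12) * exp (3 - 10 * B) ≤ exp (15 - B) := by
    rw [← exp_add]; exact exp_le_exp.2 (by linarith)
  have e4 : exp (3 - B) ≤ exp (15 - B) := exp_le_exp.2 (by linarith)
  have e5 : 2 * exp (8 * B + 12) * ((2 * (N : ℝ) + 1) * (2 * exp (473 * B ^ 2)) * (1 / (2 * H + 1)))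
      = slD B κ / (2 * H + 1) := by rw [slD, ← hN]; ring
  linarith

theorem locField_aop (x : Conf n) (i : Fin n) :
    locField (aop n β d) x i = zField β d x i - kmat n β d i i * vec x i := by
  simp only [locField, zField, aop, Matrix.add_mulVec, Matrix.smul_mulVec, Matrix.one_mulVec,
    Pi.add_apply, Pi.smul_apply, smul_eq_mul, Matrix.add_apply, Matrix.smul_apply, Matrix.one_apply_eq]
  ring

theorem sum_field_sq (hd : GoodD β ε d) (x : Conf n) :
    ∑ i, zField β d x i ^ 2 ≤ 9 * n ∧ ∑ i, locField (aop n β d) x i ^ 2 ≤ 36 * n := by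
  have hv : ∑ i, vec x i ^ 2 = (n : ℝ) := by simp [vec, pow_two, spin_sq]
  have hz : ∑ i, zField β d x i ^ 2 ≤ 9 * n := (hd.k9 (vec x)).trans_eq (by rw [hv])
  refine ⟨hz, ?_⟩
  have hk : ∀ i, kmat n β d i i ^ 2 ≤ 9 := fun i => by
    have h := hd.k9 (Pi.single i 1)
    have h2 := (single_le_sum (f := fun j => (kmat n β d *ᵥ Pi.single i 1) j ^ 2)
      (fun j _ => sq_nonneg _) (mem_univ i)).trans h
    simpa [Matrix.mulVec, dotProduct, Pi.single_apply] using h2
  refine (sum_le_sum (g := fun i => 2 * zField β d x i ^ 2 + 2 * 9) fun i _ => ?_).trans ?_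
  · rw [locField_aop]
    have hv1 : vec x i ^ 2 = 1 := by simp [vec, pow_two, spin_sq]
    nlinarith [sq_nonneg (zField β d x i + kmat n β d i i * vec x i), hk i]
  · rw [sum_add_distrib, ← mul_sum, sum_const, card_univ, Fintype.card_fin, nsmul_eq_mul]
    linarith

/-- The light mass of the free sites on average. -/
theorem light_sum (hd : GoodD β ε d) (hν : Prior ν) {η : ℝ} (hD : freeD ν (stp β d S) ≤ η * n)
    {B : ℝ} (hB : 2 ≤ B) :
    ∑ i ∈ Sᶜ, lightMass ν i (exp (-(6 * B))) ≤ n * (8 * exp (2 * B) * η + 36 / B ^ 2) := by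
  set A := aop n β d with hAdef
  have hsym : A.transpose = A := posDef_symm hd.pd
  have hpt : ∀ i, lightMass ν i (exp (-(6 * B)))
      ≤ 8 * exp (2 * B) * Ent.entSite (Ent.coupW A 0) (fun z => ν z / Ent.coupW A 0 z) i
        + ∑ x, ν x * (locField A x i ^ 2 / B ^ 2) := by
    intro i
    refine le_trans ?_ (add_le_add (sum_light_le hsym 0 hν.pos i hB) le_rfl)
    rw [lightMass, ← sum_add_distrib]
    refine sum_le_sum fun x _ => ?_
    have h0 : 0 ≤ ν x * (locField A x i ^ 2 / B ^ 2) :=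
      mul_nonneg (hν.pos x).le (by positivity)
    have := (hν.pos x).le
    rw [Pi.zero_apply, add_zero]
    by_cases hl : ν (flipAt x i) ≤ exp (-(6 * B)) * ν x
    · rw [if_pos hl]
      by_cases hu : |locField A x i| ≤ B
      · rw [if_pos ⟨hu, hl⟩]; linarith
      · rw [if_neg (fun h => hu h.1), zero_add]
        refine le_mul_of_one_le_right this ?_
        rw [one_le_div (by positivity), ← sq_abs (locField A x i)]
        exact pow_le_pow_left₀ (by linarith) (not_le.1 hu).le 2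
    · rw [if_neg hl, if_neg (fun h => hl h.2), zero_add]; exact h0
  refine (sum_le_sum fun i _ => hpt i).trans ?_
  rw [sum_add_distrib, ← mul_sum, mul_add]
  refine add_le_add ?_ ?_
  · have := mul_le_mul_of_nonneg_left hD (show 0 ≤ 8 * exp (2 * B) by positivity)
    refine le_trans (le_of_eq ?_) (this.trans_eq (by ring))
    rfl
  · rw [sum_comm]
    have hx : ∀ x, ∑ i ∈ Sᶜ, ν x * (locField A x i ^ 2 / B ^ 2) ≤ ν x * (36 * n / B ^ 2) := fun x => by
      rw [← mul_sum, ← sum_div]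
      refine mul_le_mul_of_nonneg_left (div_le_div_of_nonneg_right ?_ (sq_nonneg B)) (hν.pos x).le
      exact (sum_le_sum_of_subset_of_nonneg (subset_univ _) fun i _ _ => sq_nonneg _).trans
        (sum_field_sq hd x).2
    refine (sum_le_sum fun x _ => hx x).trans_eq ?_
    rw [← sum_mul, hν.sum]; ring

end Vale.Agent.P150.Fast.Ladder
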