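import Vale.Agent.P150.Fast.Cavity.Ladder.Moves

/-!
The exchange identity at a site seen from far away (P150): weighted tests of the two spins differ
little after `T` free steps, when the entropy at the site is small.
-/

open MeasureTheory ProbabilityTheory Real Finset
open scoped Matrix

namespace Vale.Agent.P150.Fast.Ladder

variable {n : ℕ} {β ε κ : ℝ} {d : Dis n} {ν : Conf n → ℝ} {S : Finset (Fin n)}

/-- A clipped weight times the chance of a spin, scaled to a test. -/
noncomputable def gT (M s : ℝ) (b : Bool) (u : ℝ) : ℝ := 1 / (3 * M) * (clipT M s u * sig b u)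

theorem clipT_lip {M : ℝ} (hM : 1 ≤ M) (s u w : ℝ) :
    |clipT M s u - clipT M s w| ≤ |s| * M * |u - w| := by
  suffices h : ∀ u w, clipT M s u - clipT M s w ≤ |s| * M * |u - w| by
    have h1 := h u w
    have h2 := h w u
    rw [abs_sub_comm w u] at h2
    rw [abs_le]; constructor <;> linarith
  intro u w
  have r0 : 0 ≤ |s| * M * |u - w| := by positivity
  rcases le_total M (1 + exp (s * w)) with h | h
  · have := min_le_right (1 + exp (s * u)) M
    rw [clipT, clipT, min_eq_right h]; linarith
  rw [show clipT M s w = 1 + exp (s * w) from min_eq_left h]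
  rcases le_total (exp (s * u)) (exp (s * w)) with h' | h'
  · have := min_le_left (1 + exp (s * u)) M
    rw [clipT]; linarith
  rcases le_total (1 + exp (s * u)) M with hu | hu
  · rw [show clipT M s u = 1 + exp (s * u) from min_eq_left hu]
    have k := add_one_le_exp (s * w - s * u)
    have e : exp (s * u) * exp (s * w - s * u) = exp (s * w) := by rw [← exp_add]; ring_nf
    have h1 := mul_le_mul_of_nonneg_left k (exp_pos (s * u)).le
    have h2 : s * u - s * w ≤ |s| * |u - w| := by
      rw [← mul_sub, ← abs_mul]; exact le_abs_self _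
    have h3 : exp (s * u) * (s * u - s * w) ≤ exp (s * u) * (|s| * |u - w|) :=
      mul_le_mul_of_nonneg_left h2 (exp_pos _).le
    have h4 : exp (s * u) * (|s| * |u - w|) ≤ M * (|s| * |u - w|) :=
      mul_le_mul_of_nonneg_right (by linarith) (by positivity)
    rw [e] at h1
    linarith
  · rw [show clipT M s u = M from min_eq_right hu]
    have hM1 : 0 < M - 1 ∨ M - 1 = 0 := (sub_nonneg.2 hM).lt_or_eq.imp id Eq.symm
    rcases hM1 with hM1 | hM1
    · have k := add_one_le_exp (s * w - log (M - 1))
      rw [exp_sub, exp_log hM1, le_div_iff₀ hM1] at k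
      have k2 : log (M - 1) ≤ s * u := by rw [log_le_iff_le_exp hM1]; linarith
      have h2 : s * u - s * w ≤ |s| * |u - w| := by
        rw [← mul_sub, ← abs_mul]; exact le_abs_self _
      have h3 : (M - 1) * (s * u - s * w) ≤ (M - 1) * (|s| * |u - w|) :=
        mul_le_mul_of_nonneg_left h2 hM1.le
      have h4 : (M - 1) * (log (M - 1) - s * w) ≤ (M - 1) * (s * u - s * w) :=
        mul_le_mul_of_nonneg_left (by linarith) hM1.le
      have h5 : (M - 1) * (|s| * |u - w|) ≤ M * (|s| * |u - w|) :=
        mul_le_mul_of_nonneg_right (by linarith) (by positivity)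
      linarith
    · linarith [exp_pos (s * w)]

theorem sig_lip (b : Bool) (u w : ℝ) : |sig b u - sig b w| ≤ |u - w| := by
  have e : ∀ t, sig b t = (1 + spin b * tanh t) / 2 := fun t => by
    rw [tanh_eq_sinh_div_cosh, sinh_eq, cosh_eq, sig]
    cases b <;> simp only [spin, if_true, Bool.false_eq_true, if_false, one_mul, neg_mul] <;>
      field_simp <;> ring
  rw [e, e, div_sub_div_same, add_sub_add_left_eq_sub, ← mul_sub, abs_div, abs_mul,
    Vale.Agent.P150.abs_spin, one_mul, abs_two]
  have := abs_tanh_sub_le u w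
  linarith [abs_nonneg (u - w)]

theorem gT_test {M s : ℝ} (hM : 1 ≤ M) (hs : |s| ≤ 2) (b : Bool) : IsTest1 (gT M s b) := by
  have hc := fun u => clipT_mem (show 0 ≤ M by linarith) s u
  refine ⟨fun u => ?_, fun u w => ?_⟩
  · rw [gT, one_div_mul_eq_div, abs_div, abs_of_pos (show 0 < 3 * M by linarith),
      div_le_one (by linarith), abs_mul, abs_of_nonneg (hc u).1, abs_of_nonneg (sig_nonneg b u)]
    nlinarith [hc u, sig_le_one b u, sig_nonneg b u]
  · simp only [gT]
    rw [← mul_sub, one_div_mul_eq_div, abs_div, abs_of_pos (show 0 < 3 * M by linarith),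
      div_le_iff₀ (by linarith),
      show clipT M s u * sig b u - clipT M s w * sig b w
        = (clipT M s u - clipT M s w) * sig b u + clipT M s w * (sig b u - sig b w) by ring]
    refine (abs_add_le _ _).trans ?_
    rw [abs_mul, abs_mul, abs_of_nonneg (sig_nonneg b u), abs_of_nonneg (hc w).1]
    have h1 := mul_le_mul_of_nonneg_left (sig_le_one b u) (abs_nonneg (clipT M s u - clipT M s w))
    have h2 := mul_le_mul (hc w).2 (sig_lip b u w) (abs_nonneg _) (by linarith)
    have h3 := clipT_lip hM s u w
    have h4 : |s| * M * |u - w| ≤ 2 * M * |u - w| :=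
      mul_le_mul_of_nonneg_right (mul_le_mul_of_nonneg_right hs (by linarith)) (abs_nonneg _)
    linarith

/-- The exchange identity far from the start. -/
theorem exchange (hd : GoodD β ε d) (hν : Prior ν) {i : Fin n} (hi : i ∉ S) (T : ℕ) {M s : ℝ}
    (hM : 1 ≤ M) (hs : |s| ≤ 2) {B a : ℝ} (hB : 1 ≤ B) (ha : 0 < a) :
    ∑ x, ν x * |far β d ν S T i true (gT M s false) x - far β d ν S T i false (gT M s true) x|
      ≤ |kmat n β d i i| + 2 * a
        + (Ent.entSite (Ent.coupW (aop n β d) 0) (fun z => ν z / Ent.coupW (aop n β d) 0 z) i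
          + (2 + 2 * exp (8 * B + 12)) / (2 * T + 1)
          + 4 * (lightMass ν i (exp (-(6 * B))) + 2 * exp (3 - B))) / a := by
  have hK := nrm_psd hd.pd hν.pos S
  set A := aop n β d with hA
  set h : Conf n → ℝ := fun x => onVal i true x * obs β d (gT M s false) i x
    - onVal i false x * obs β d (gT M s true) i x with hh
  have elin : ∀ x, powOp (nrm β d ν S) T h x
      = far β d ν S T i true (gT M s false) x - far β d ν S T i false (gT M s true) x := fun x => by
    have e : h = fun z => 1 * (onVal i true z * obs β d (gT M s false) i z)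
        + (-1) * (onVal i false z * obs β d (gT M s true) i z) := by funext z; simp only [hh]; ring
    rw [e, powOp_lin, far, far]; ring
  set G : Conf n → ℝ := fun x => if 0 ≤ powOp (nrm β d ν S) T h x then 1 else -1 with hG
  have hG1 : ∀ x, |G x| ≤ 1 := fun x => by simp only [hG]; split <;> norm_num
  set φ := powOp (nrm β d ν S) T G with hφ
  have hφ1 : ∀ x, |φ x| ≤ 1 := fun x => powOp_abs_le hK T hG1 x
  have e1 : ∑ x, ν x * |far β d ν S T i true (gT M s false) x - far β d ν S T i false (gT M s true) x|
      = ∑ x, ν x * φ x * h x := by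
    simp only [← elin]
    change _ = ip ν φ h
    rw [hφ, ← ip_pow_symm hK T G h]
    refine sum_congr rfl fun x _ => ?_
    simp only [hG]
    split_ifs with hx
    · rw [abs_of_nonneg hx]; ring
    · rw [abs_of_neg (not_le.1 hx)]; ring
  set c : Conf n → ℝ := fun x => spin (x i) * (1 / (3 * M) * clipT M s (locField A x i)) with hc
  set h' : Conf n → ℝ := fun x => c x * sig (!x i) (locField A x i) with hh'
  have hdiff : ∀ x, |h x - h' x| ≤ |kmat n β d i i| := fun x => by
    have k : |zField β d x i - locField A x i| ≤ |kmat n β d i i| := by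
      rw [hA, locField_aop, sub_sub_cancel, abs_mul]
      exact mul_le_of_le_one_right (abs_nonneg _) (abs_vec_le x i)
    have t := fun b => ((gT_test hM hs b).2 (zField β d x i) (locField A x i)).trans k
    cases hb : x i
    · refine le_trans (le_of_eq ?_) (t true)
      rw [abs_sub_comm (gT M s true _)]
      simp [hh, hh', hc, obs, onVal, hb, gT, spin]
      ring_nf
    · refine le_trans (le_of_eq ?_) (t false)
      simp [hh, hh', hc, obs, onVal, hb, gT, spin]
      ring_nf
  have hc1 : ∀ x, |c x| ≤ 1 := fun x => by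
    have := clipT_mem (show 0 ≤ M by linarith) s (locField A x i)
    rw [hc, abs_mul, Vale.Agent.P150.abs_spin, one_mul, one_div_mul_eq_div,
      abs_of_nonneg (div_nonneg this.1 (by linarith)), div_le_one (by linarith)]
    linarith
  have hcf : ∀ x, c (flipAt x i) = -c x := fun x => by
    simp only [hc, locField_flip]
    simp [flipAt, spin_not]
  have sym : 2 * ∑ x, ν x * φ x * h' x
      = ∑ x, c x * (φ x * (ν x * sig (!x i) (locField A x i) - ν (flipAt x i) * sig (x i) (locField A x i))
        + (φ x - φ (flipAt x i)) * (ν (flipAt x i) * sig (x i) (locField A x i))) := by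
    rw [two_mul]
    nth_rewrite 2 [← Ent.sum_flip i fun x => ν x * φ x * h' x]
    rw [← sum_add_distrib]
    refine sum_congr rfl fun x _ => ?_
    simp only [hh', hcf, locField_flip]
    simp only [flipAt, Function.update_self, Bool.not_not]
    ring
  have pair := pair_l1 (posDef_symm hd.pd) (0 : Fin n → ℝ) hν.pos hν.sum i
  simp only [Pi.zero_apply, add_zero, ← hA] at pair
  have flip := flip_invariance (s := stp β d S) hν.pos hν.sum hd.pd hi hφ1 (B := B)
    (exp_pos (-(6 * B))) zero_le_one
  simp only [one_mul] at flip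
  have hform : kForm ν (kerOf (pR ν) (stp β d S)) φ ≤ 1 / (2 * T + 1) :=
    (smooth_form hK T G).trans (div_le_div_of_nonneg_right
      (ip_self_le hK.wnn hν.sum.le hG1) (by positivity))
  have hdiag : (stp β d S).A i i ≤ 6 := hd.diag i
  have hflip : ∑ x, ν x * (φ x - φ (flipAt x i)) ^ 2 ≤ (2 + 2 * exp (8 * B + 12)) / (2 * T + 1)
      + 4 * (lightMass ν i (exp (-(6 * B))) + 2 * exp (3 - B)) := by
    refine flip.trans (add_le_add ?_ ?_)
    · rw [div_eq_mul_one_div (2 + 2 * exp (8 * B + 12))]
      refine mul_le_mul ?_ hform (kForm_nonneg hK _) (by positivity)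
      rw [div_eq_mul_inv, ← exp_neg, neg_neg, ← exp_add]
      have : exp (2 * B + 2 * (stp β d S).A i i + 6 * B) ≤ exp (8 * B + 12) :=
        exp_le_exp.2 (by linarith)
      linarith
    · have : exp ((1 : ℝ) ^ 2 * (stp β d S).A i i / 2 - B) ≤ exp (3 - B) := exp_le_exp.2 (by linarith)
      linarith
  have hl2 : ∑ x, ν x * |φ x - φ (flipAt x i)| ≤ a + ((2 + 2 * exp (8 * B + 12)) / (2 * T + 1)
      + 4 * (lightMass ν i (exp (-(6 * B))) + 2 * exp (3 - B))) / a := by
    refine (l1_le_l2 hK.wnn hν.sum.le _).trans ((sqrt_le_lin ha ?_).trans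
      (add_le_add le_rfl (div_le_div_of_nonneg_right hflip ha.le)))
    exact sum_nonneg fun x _ => mul_nonneg (hν.pos x).le (sq_nonneg _)
  have hl2' : ∑ x, ν (flipAt x i) * |φ x - φ (flipAt x i)| = ∑ x, ν x * |φ x - φ (flipAt x i)| := by
    rw [← Ent.sum_flip i fun x => ν x * |φ x - φ (flipAt x i)|]
    exact sum_congr rfl fun x _ => by simp [flipAt, abs_sub_comm]
  have bnd : 2 * ∑ x, ν x * φ x * h' x
      ≤ ∑ x, |ν x * sig (!x i) (locField A x i) - ν (flipAt x i) * sig (x i) (locField A x i)|
        + ∑ x, ν (flipAt x i) * |φ x - φ (flipAt x i)| := by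
    rw [sym, ← sum_add_distrib]
    refine sum_le_sum fun x _ => (le_abs_self _).trans ?_
    rw [abs_mul]
    refine (mul_le_of_le_one_left (abs_nonneg _) (hc1 x)).trans ((abs_add_le _ _).trans
      (add_le_add ?_ ?_))
    · rw [abs_mul]; exact mul_le_of_le_one_left (abs_nonneg _) (hφ1 x)
    · rw [abs_mul, abs_mul, abs_of_pos (hν.pos _), abs_of_nonneg (sig_nonneg _ _), ← mul_assoc,
        mul_comm |φ x - φ (flipAt x i)|]
      exact mul_le_of_le_one_right (mul_nonneg (hν.pos _).le (abs_nonneg _)) (sig_le_one _ _)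
  have hk : ∑ x, ν x * φ x * h x ≤ ∑ x, ν x * φ x * h' x + |kmat n β d i i| := by
    rw [← one_mul |kmat n β d i i|, ← hν.sum, sum_mul, ← sum_add_distrib]
    refine sum_le_sum fun x _ => ?_
    have k : φ x * (h x - h' x) ≤ |kmat n β d i i| := (le_abs_self _).trans
      ((abs_mul _ _).le.trans ((mul_le_of_le_one_left (abs_nonneg _) (hφ1 x)).trans (hdiff x)))
    have := mul_le_mul_of_nonneg_left k (hν.pos x).le
    linarith
  set E := Ent.entSite (Ent.coupW A 0) (fun z => ν z / Ent.coupW A 0 z) i
  have hE : 0 ≤ E := Ent.entSite_nonneg (fun _ => exp_pos _)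
    (fun z => div_pos (hν.pos z) (exp_pos _)) i
  have hs2 := sqrt_le_lin ha hE
  have hX : 0 ≤ (((2 + 2 * exp (8 * B + 12)) / (2 * T + 1)
      + 4 * (lightMass ν i (exp (-(6 * B))) + 2 * exp (3 - B))) / a) :=
    div_nonneg ((sum_nonneg fun x _ => mul_nonneg (hν.pos x).le (sq_nonneg _)).trans hflip) ha.le
  rw [e1, show E + (2 + 2 * exp (8 * B + 12)) / (2 * (T : ℝ) + 1)
    + 4 * (lightMass ν i (exp (-(6 * B))) + 2 * exp (3 - B))
    = E + ((2 + 2 * exp (8 * B + 12)) / (2 * T + 1)
      + 4 * (lightMass ν i (exp (-(6 * B))) + 2 * exp (3 - B))) by ring, add_div]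
  linarith

end Vale.Agent.P150.Fast.Ladder
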