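import Vale.Agent.P150.Fast.Cavity.Ladder.Point

/-!
One level of the ladder (P150): flat potentials, a small core error and small entropy give a small
cavity error at the level's time.
-/

open MeasureTheory ProbabilityTheory Real Finset
open scoped Matrix

namespace Vale.Agent.P150.Fast.Ladder

variable {n : ℕ} {β ε κ : ℝ} {d : Dis n} {ν : Conf n → ℝ} {S : Finset (Fin n)}

/-- What is used of a level: every error term is at most `ζ`. -/
structure LevelOK (κ ζ η B₀ B : ℝ) (H T H' : ℕ) : Prop where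
  hHT : H ≤ T
  hTH : T ≤ H'
  hB₀ : 2 ≤ B₀
  hB : 2 ≤ B
  slice : 2 * (H : ℝ) * (1 / slLow κ / (2 * T + 1)) ≤ ζ
  time : (T : ℝ) * (1 / (2 * H' + 1)) ≤ ζ
  form : (T : ℝ) * (slD B κ / (2 * H' + 1) + 4 * (8 * exp (2 * B) * η + 36 / B ^ 2) + 40 * exp (15 - B)) ≤ ζ
  ent : η ≤ ζ
  flip : (2 + 2 * exp (8 * B₀ + 12)) / (2 * (T : ℝ) + 1) ≤ ζ
  light : 8 * exp (2 * B₀) * η + 36 / B₀ ^ 2 ≤ ζ
  tail : exp (3 - B₀) ≤ ζ

theorem sum_drop_nonneg (hd : GoodD β ε d) (hν : Prior ν) (hκ : 0 < κ) (Gs : Finset (ℝ → ℝ)) {k l : ℕ}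
    (hkl : k ≤ l) : 0 ≤ ∑ i, (cx β d ν S i k - cx β d ν S i l) ∧
      0 ≤ ∑ i ∈ Sᶜ, ∑ b : Bool, ∑ F ∈ Gs, (cw β d κ ν S i b F k - cw β d κ ν S i b F l) :=
  ⟨sum_nonneg fun i _ => sub_nonneg.2 ((powerThm _ ν _ (nrm_psd hd.pd hν.pos S) fun y => vec y i).2.1 hkl),
    sum_nonneg fun i _ => sum_nonneg fun b _ => sum_nonneg fun F _ =>
      sub_nonneg.2 ((powerThm _ _ _ (frz_psd hd hκ hν.pos S i b) (obs β d F i)).2.1 hkl)⟩

theorem pot_sub (Gs : Finset (ℝ → ℝ)) (k l : ℕ) : pot β d κ ν S Gs k - pot β d κ ν S Gs l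
    = (n : ℝ)⁻¹ * ∑ i, (cx β d ν S i k - cx β d ν S i l)
      + (n : ℝ)⁻¹ * ∑ i ∈ Sᶜ, ∑ b : Bool, ∑ F ∈ Gs, (cw β d κ ν S i b F k - cw β d κ ν S i b F l) := by
  simp only [pot_split, sum_sub_distrib]; ring

theorem pot_anti (hd : GoodD β ε d) (hν : Prior ν) (hκ : 0 < κ) (Gs : Finset (ℝ → ℝ)) {k l : ℕ}
    (hkl : k ≤ l) : pot β d κ ν S Gs l ≤ pot β d κ ν S Gs k := by
  obtain ⟨h1, h2⟩ := sum_drop_nonneg (S := S) hd hν hκ Gs hkl
  have hn : 0 ≤ (n : ℝ)⁻¹ := by positivity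
  linarith [pot_sub (S := S) (β := β) (d := d) (κ := κ) (ν := ν) Gs k l, mul_nonneg hn h1, mul_nonneg hn h2]

theorem pot_mem (hd : GoodD β ε d) (hν : Prior ν) (hκ : 0 < κ) {Gs : Finset (ℝ → ℝ)}
    (hG : ∀ F ∈ Gs, IsTest1 F) (k : ℕ) :
    0 ≤ pot β d κ ν S Gs k ∧ pot β d κ ν S Gs k ≤ 1 + 2 * Gs.card := by
  rw [pot_split]
  constructor
  · exact mul_nonneg (by positivity) (add_nonneg (sum_nonneg fun i _ => (cx_mem hd hν i k).1)
      (sum_nonneg fun i _ => sum_nonneg fun b _ => sum_nonneg fun F hF => (cw_mem hd hν hκ i b (hG F hF) k).1))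
  · have h1 := sum_le_sum fun i (_ : i ∈ (univ : Finset (Fin n))) => (cx_mem (S := S) hd hν i k).2
    have h2 := sum_le_sum fun i (_ : i ∈ Sᶜ) => sum_le_sum fun b (_ : b ∈ (univ : Finset Bool)) =>
      sum_le_sum fun F hF => (cw_mem (S := S) hd hν hκ i b (hG F hF) k).2
    simp only [sum_const, card_univ, Fintype.card_fin, Fintype.card_bool, nsmul_eq_mul] at h1 h2
    have hc : (Sᶜ.card : ℝ) ≤ n := by
      have := card_le_univ (s := Sᶜ)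
      rw [Fintype.card_fin] at this
      exact_mod_cast this
    have h3 := mul_le_mul_of_nonneg_right hc (show (0 : ℝ) ≤ (2 : ℕ) * ((Gs.card : ℝ) * 1) by positivity)
    refine (mul_le_mul_of_nonneg_left (add_le_add h1 (h2.trans h3)) (by positivity)).trans ?_
    rw [show (n : ℝ) * 1 + n * ((2 : ℕ) * ((Gs.card : ℝ) * 1)) = n * (1 + 2 * Gs.card) by push_cast; ring,
      ← mul_assoc]
    exact mul_le_of_le_one_left (by positivity) inv_mul_le_one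

theorem avg_const_le {c : ℝ} (hc : 0 ≤ c) : (n : ℝ)⁻¹ * ∑ _i ∈ Sᶜ, c ≤ c := by
  rw [sum_const, nsmul_eq_mul, ← mul_assoc]
  refine mul_le_of_le_one_left hc ?_
  refine (mul_le_mul_of_nonneg_left ?_ (by positivity)).trans inv_mul_le_one
  have := card_le_univ (s := Sᶜ)
  rw [Fintype.card_fin] at this
  exact_mod_cast this

/-- The moves of the variance at a level. -/
theorem rMoves_le (hn : 0 < n) (hd : GoodD β ε d) (hν : Prior ν) (hβ : β ^ 2 ≤ 1) (hκ : 0 < κ)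
    (Gs : Finset (ℝ → ℝ)) {ζ : ℝ} {H T H' : ℕ} (hHT : H ≤ T) (hTH : T ≤ H')
    (htime : (T : ℝ) * (1 / (2 * H' + 1)) ≤ ζ)
    (hdrop : pot β d κ ν S Gs (2 * H) - pot β d κ ν S Gs (2 * H') ≤ ζ) {a : ℝ} (ha : 0 < a) :
    rMoves β d ν S H T H' ≤ 6 * (a + ζ / a) := by
  have h1 := rvar_close (S := S) hn hd hν hβ (hHT.trans hTH) ha
  have h2 := rvar_close (S := S) hn hd hν hβ hTH ha
  have h3 := rvar_two_time (S := S) hn hd hν hβ T H' ha
  have hn' : 0 ≤ (n : ℝ)⁻¹ := by positivity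
  have e := pot_sub (S := S) (β := β) (d := d) (κ := κ) (ν := ν) Gs (2 * H) (2 * H')
  have hw := mul_nonneg hn' (sum_drop_nonneg (S := S) hd hν hκ Gs (show 2 * H ≤ 2 * H' by omega)).2
  have hx : (n : ℝ)⁻¹ * ∑ i, (cx β d ν S i (2 * T) - cx β d ν S i (2 * H'))
      ≤ (n : ℝ)⁻¹ * ∑ i, (cx β d ν S i (2 * H) - cx β d ν S i (2 * H')) :=
    mul_le_mul_of_nonneg_left (sum_le_sum fun i _ => sub_le_sub_right
      ((powerThm _ ν _ (nrm_psd hd.pd hν.pos S) fun y => vec y i).2.1 (by omega)) _) hn'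
  have u1 := div_le_div_of_nonneg_right (show (n : ℝ)⁻¹ * ∑ i, (cx β d ν S i (2 * H) - cx β d ν S i (2 * H')) ≤ ζ
    by linarith) ha.le
  have u2 := div_le_div_of_nonneg_right (show (n : ℝ)⁻¹ * ∑ i, (cx β d ν S i (2 * T) - cx β d ν S i (2 * H')) ≤ ζ
    by linarith) ha.le
  have u3 := div_le_div_of_nonneg_right htime ha.le
  rw [rMoves]
  linarith

/-- The mean error of the far tests and of the exchange at a level. -/
theorem errs_le (hn : 0 < n) (hd : GoodD β ε d) (hν : Prior ν) (hβ : β ^ 2 ≤ 1) (hκ : 0 < κ) (hκ1 : κ ≤ 1)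
    {Gs : Finset (ℝ → ℝ)} (hG : ∀ F ∈ Gs, IsTest1 F) {ζ η B₀ B θc M a : ℝ} {H T H' : ℕ}
    (hL : LevelOK κ ζ η B₀ B H T H') (hD : freeD ν (stp β d S) ≤ η * n)
    (hdrop : pot β d κ ν S Gs (2 * H) - pot β d κ ν S Gs (2 * H') ≤ ζ)
    (hcore : (n : ℝ)⁻¹ * ∑ i ∈ Sᶜ, ∑ b : Bool, ∑ x, wb ν i b x * dev β d κ ν S Gs H i b x ≤ θc)
    (hM : 1 ≤ M) (ha : 0 < a) (ha1 : a ≤ 1) :
    (n : ℝ)⁻¹ * ∑ i ∈ Sᶜ, ∑ x, ν x * (err0 β d κ ν S H' T Gs a i x + err1 β d ν S T M i x)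
      ≤ θc + (40 * (Gs.card : ℝ) + 40) * (a + ζ / a ^ 3) + 2 * ε := by
  set g : ℝ := (Gs.card : ℝ) with hg
  set c₀ := (2 + 2 * exp (8 * B₀ + 12)) / (2 * (T : ℝ) + 1) with hc₀
  set E := fun i => Ent.entSite (Ent.coupW (aop n β d) 0) (fun z => ν z / Ent.coupW (aop n β d) 0 z) i
  set R := rMoves β d ν S H T H'
  set s := 2 * (H : ℝ) * (1 / slLow κ / (2 * T + 1))
  have hi : ∀ i ∈ Sᶜ, ∑ x, ν x * (err0 β d κ ν S H' T Gs a i x + err1 β d ν S T M i x)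
      ≤ ∑ b : Bool, ∑ x, wb ν i b x * dev β d κ ν S Gs H i b x + 2 * |kmat n β d i i|
        + ((16 * g + 6) * a + (2 * g * s + 2 * g * R + 2 * c₀ + 16 * exp (3 - B₀)) / a)
        + (2 * ∑ b : Bool, ∑ F ∈ Gs, (cw β d κ ν S i b F (2 * H) - cw β d κ ν S i b F (2 * H'))
            + 6 * g * (T * formB ν i H' B κ) + 2 * E i + 8 * lightMass ν i (exp (-(6 * B₀)))) / a := by
    intro i hi
    rw [mem_compl] at hi
    have h0 := fun b => delta_far (S := S) (H := H) (T := T) hd hν hβ hκ hκ1 hG hi b (hL.hHT.trans hL.hTH)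
      (show 1 ≤ B by linarith [hL.hB]) ha
    have h1 := exchange_both (S := S) hd hν hi T hM (show 1 ≤ B₀ by linarith [hL.hB₀]) ha
    simp only [err0, err1, Fintype.sum_bool, mul_add, sum_add_distrib] at h0 h1 ⊢
    have t1 := h0 true
    have t0 := h0 false
    simp only [hc₀, s, R, E, mul_add, Fintype.sum_bool, add_div, mul_div_assoc, ← hg] at t1 t0 h1 ⊢
    linarith
  refine (mul_le_mul_of_nonneg_left (sum_le_sum hi) (by positivity)).trans ?_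
  rw [sum_add_distrib, sum_add_distrib, sum_add_distrib, mul_add, mul_add, mul_add]
  have hn' : 0 ≤ (n : ℝ)⁻¹ := by positivity
  have hnn : (n : ℝ)⁻¹ * n = 1 := inv_mul_cancel₀ (by positivity)
  have k1 : (n : ℝ)⁻¹ * ∑ i ∈ Sᶜ, |kmat n β d i i| ≤ ε := by
    refine (mul_le_mul_of_nonneg_left ((sum_le_sum_of_subset_of_nonneg (subset_univ _)
      fun i _ _ => abs_nonneg _).trans hd.diagK) hn').trans (le_of_eq ?_)
    rw [mul_left_comm, hnn, mul_one]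
  have k2 : (n : ℝ)⁻¹ * ∑ i ∈ Sᶜ, ∑ b : Bool, ∑ F ∈ Gs,
      (cw β d κ ν S i b F (2 * H) - cw β d κ ν S i b F (2 * H')) ≤ ζ := by
    have hx := mul_nonneg hn' (sum_drop_nonneg (S := S) hd hν hκ Gs
      (show 2 * H ≤ 2 * H' by linarith [hL.hHT, hL.hTH])).1
    linarith [pot_sub (S := S) (β := β) (d := d) (κ := κ) (ν := ν) Gs (2 * H) (2 * H')]
  have k3 : (n : ℝ)⁻¹ * ∑ i ∈ Sᶜ, E i ≤ ζ := by
    refine (mul_le_mul_of_nonneg_left (show ∑ i ∈ Sᶜ, E i ≤ η * n from hD) hn').trans ?_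
    rw [mul_left_comm, hnn, mul_one]
    exact hL.ent
  have hl : ∀ B', 2 ≤ B' → (n : ℝ)⁻¹ * ∑ i ∈ Sᶜ, lightMass ν i (exp (-(6 * B')))
      ≤ 8 * exp (2 * B') * η + 36 / B' ^ 2 := fun B' hB' => by
    refine (mul_le_mul_of_nonneg_left (light_sum hd hν hD hB') hn').trans (le_of_eq ?_)
    rw [← mul_assoc, hnn, one_mul]
  have k4 := (hl B₀ hL.hB₀).trans hL.light
  have k5 : (n : ℝ)⁻¹ * ∑ i ∈ Sᶜ, (T : ℝ) * formB ν i H' B κ ≤ ζ := by
    refine le_trans ?_ hL.form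
    rw [← mul_sum, mul_left_comm]
    refine mul_le_mul_of_nonneg_left ?_ (Nat.cast_nonneg T)
    simp only [formB, sum_add_distrib, ← mul_sum, mul_add]
    refine add_le_add (add_le_add ?_ ?_) ?_
    · exact avg_const_le (div_nonneg (slD_nonneg B κ) (by positivity))
    · rw [mul_left_comm]; linarith [hl B hL.hB]
    · rw [mul_left_comm]; exact mul_le_mul_of_nonneg_left (avg_const_le (exp_pos _).le) (by norm_num)
  have hR := rMoves_le hn hd hν hβ hκ Gs hL.hHT hL.hTH hL.time hdrop (show 0 < a ^ 2 by positivity)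
  have g0 : 0 ≤ g := Nat.cast_nonneg _
  have hR0 : 0 ≤ R := by
    refine add_nonneg (add_nonneg (sum_nonneg fun x _ => ?_) (sum_nonneg fun x _ => ?_)) (sum_nonneg fun x _ => ?_)
    · exact mul_nonneg (hν.pos x).le (abs_nonneg _)
    · exact mul_nonneg (hν.pos x).le (powOp_nonneg (nrm_psd hd.pd hν.pos S) T (fun _ => abs_nonneg _) x)
    · exact mul_nonneg (hν.pos x).le (abs_nonneg _)
  have hs0 : 0 ≤ s := mul_nonneg (by positivity)
    (div_nonneg (one_div_nonneg.2 (slLow_pos hκ).le) (by positivity))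
  have hc0 : 0 ≤ c₀ := by positivity
  have hζ : 0 ≤ ζ := hc0.trans hL.flip
  have k6 : (n : ℝ)⁻¹ * ∑ _i ∈ Sᶜ, ((16 * g + 6) * a + (2 * g * s + 2 * g * R + 2 * c₀ + 16 * exp (3 - B₀)) / a)
      ≤ (16 * g + 6) * a + (2 * g * ζ + 2 * ζ + 16 * ζ) / a + 12 * g * (a + ζ / a ^ 3) := by
    refine (avg_const_le (by positivity)).trans ?_
    have p1 := mul_le_mul_of_nonneg_left (show s ≤ ζ from hL.slice) (show 0 ≤ 2 * g / a by positivity)
    have p2 := mul_le_mul_of_nonneg_left hR (show 0 ≤ 2 * g / a by positivity)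
    have p3 := mul_le_mul_of_nonneg_left (show c₀ ≤ ζ from hL.flip) (show 0 ≤ 2 / a by positivity)
    have p4 := mul_le_mul_of_nonneg_left hL.tail (show 0 ≤ 16 / a by positivity)
    have e : 2 * g / a * (6 * (a ^ 2 + ζ / a ^ 2)) = 12 * g * (a + ζ / a ^ 3) := by field_simp; ring
    have e2 : (2 * g * s + 2 * g * R + 2 * c₀ + 16 * exp (3 - B₀)) / a
        = 2 * g / a * s + 2 * g / a * R + 2 / a * c₀ + 16 / a * exp (3 - B₀) := by ring
    have e3 : (2 * g * ζ + 2 * ζ + 16 * ζ) / a = 2 * g / a * ζ + 2 / a * ζ + 16 / a * ζ := by ring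
    linarith
  have p5 := mul_le_mul_of_nonneg_left k2 (show 0 ≤ 2 / a by positivity)
  have p6 := mul_le_mul_of_nonneg_left k5 (show 0 ≤ 6 * g / a by positivity)
  have p7 := mul_le_mul_of_nonneg_left k3 (show 0 ≤ 2 / a by positivity)
  have p8 := mul_le_mul_of_nonneg_left k4 (show 0 ≤ 8 / a by positivity)
  have hpow : ζ / a ≤ ζ / a ^ 3 :=
    div_le_div_of_nonneg_left hζ (by positivity) (pow_le_of_le_one ha.le ha1 (by norm_num))
  have q := mul_le_mul_of_nonneg_left hpow (show 0 ≤ 8 * g + 30 by positivity)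
  have q2 : 0 ≤ (12 * g + 34) * a + (20 * g + 10) * (ζ / a ^ 3) := by positivity
  have eK : (n : ℝ)⁻¹ * ∑ i ∈ Sᶜ, 2 * |kmat n β d i i| = 2 * ((n : ℝ)⁻¹ * ∑ i ∈ Sᶜ, |kmat n β d i i|) := by
    rw [← mul_sum]; ring
  have eV : (n : ℝ)⁻¹ * ∑ i ∈ Sᶜ, (2 * ∑ b : Bool, ∑ F ∈ Gs, (cw β d κ ν S i b F (2 * H) - cw β d κ ν S i b F (2 * H'))
        + 6 * g * (T * formB ν i H' B κ) + 2 * E i + 8 * lightMass ν i (exp (-(6 * B₀)))) / a
      = 2 / a * ((n : ℝ)⁻¹ * ∑ i ∈ Sᶜ, ∑ b : Bool, ∑ F ∈ Gs,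
            (cw β d κ ν S i b F (2 * H) - cw β d κ ν S i b F (2 * H')))
        + 6 * g / a * ((n : ℝ)⁻¹ * ∑ i ∈ Sᶜ, (T : ℝ) * formB ν i H' B κ)
        + 2 / a * ((n : ℝ)⁻¹ * ∑ i ∈ Sᶜ, E i)
        + 8 / a * ((n : ℝ)⁻¹ * ∑ i ∈ Sᶜ, lightMass ν i (exp (-(6 * B₀)))) := by
    rw [← sum_div, sum_add_distrib, sum_add_distrib, sum_add_distrib, ← mul_sum, ← mul_sum, ← mul_sum, ← mul_sum, ← mul_sum]
    ring
  rw [eK, eV]
  linear_combination hcore + 2 * k1 + k6 + p5 + p6 + p7 + p8 + q + q2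

/-- The cavity error at a level. -/
theorem level_bound [DecidableEq (ℝ → ℝ)] (hn : 0 < n) (hd : GoodD β ε d) (hν : Prior ν) (hβ : β ^ 2 ≤ 1)
    (hκ : 0 < κ) (hκ1 : κ ≤ 1) {Fs : Finset (ℝ → ℝ)} (hFs : ∀ F ∈ Fs, IsTest1 F)
    {Bs B₁ M M' : ℝ} (hBs : 2 ≤ Bs) (hB₁ : Bs ≤ B₁) (hM : 1 ≤ M) (hM' : 1 ≤ M')
    (hMB : 8 * exp (14 * Bs) ≤ M) {ζ η B₀ B θc a : ℝ} {H T H' : ℕ}
    (hL : LevelOK κ ζ η B₀ B H T H') (hD : freeD ν (stp β d S) ≤ η * n)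
    (hdrop : pot β d κ ν S (siteTests Fs Bs B₁ M M') (2 * H)
      - pot β d κ ν S (siteTests Fs Bs B₁ M M') (2 * H') ≤ ζ)
    (hcore : (n : ℝ)⁻¹ * ∑ i ∈ Sᶜ, ∑ b : Bool,
      ∑ x, wb ν i b x * dev β d κ ν S (siteTests Fs Bs B₁ M M') H i b x ≤ θc)
    (ha : 0 < a) (ha1 : a ≤ 1) :
    cavErr β d 0 ν 0 S T Fs
      ≤ siteC Fs.card Bs B₁ M M'
          * (θc + (40 * ((siteTests Fs Bs B₁ M M').card : ℝ) + 40) * (a + ζ / a ^ 3) + 2 * ε)
        + siteE Fs.card B₁ M M' + siteK Fs.card Bs B₁ M' * 9 := by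
  have hC : 0 ≤ siteC Fs.card Bs B₁ M M' := by unfold siteC; positivity
  have hK : 0 ≤ siteK Fs.card Bs B₁ M' := by unfold siteK; positivity
  have hE : 0 ≤ siteE Fs.card B₁ M M' := by unfold siteE; positivity
  rw [cavErr_eq hν]
  refine (mul_le_mul_of_nonneg_left (sum_le_sum fun i _ => sum_le_sum fun x _ =>
    mul_le_mul_of_nonneg_left (siteErr_le (κ := κ) (S := S) hd hν hβ hFs hBs hB₁ hM hM' hMB ha H' T i x)
      (hν.pos x).le) (by positivity)).trans ?_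
  have h := errs_le (S := S) hn hd hν hβ hκ hκ1 (siteTests_test hFs hM hM') hL hD hdrop hcore hM ha ha1
  have h9 : (n : ℝ)⁻¹ * ∑ i ∈ Sᶜ, ∑ x, ν x * field2 β d ν S T i x ≤ 9 := by
    have e : ∀ i, ∑ x, ν x * field2 β d ν S T i x = ∑ x, ν x * zField β d x i ^ 2 := fun i =>
      ip_one_pow (nrm_psd hd.pd hν.pos S) T fun z => zField β d z i ^ 2
    simp only [e]
    rw [sum_comm]
    refine (mul_le_mul_of_nonneg_left (sum_le_sum (g := fun x => ν x * (9 * n)) fun x _ => ?_) (by positivity)).trans ?_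
    · rw [← mul_sum]
      exact mul_le_mul_of_nonneg_left ((sum_le_sum_of_subset_of_nonneg (subset_univ _)
        fun i _ _ => sq_nonneg _).trans (sum_field_sq hd x).1) (hν.pos x).le
    · rw [← sum_mul, hν.sum, one_mul, mul_left_comm, inv_mul_cancel₀ (by positivity), mul_one]
  have h2 := mul_le_mul_of_nonneg_left h hC
  have h3 := mul_le_mul_of_nonneg_left h9 hK
  have h4 : (n : ℝ)⁻¹ * ∑ i ∈ Sᶜ, ∑ x, ν x * siteE Fs.card B₁ M M' ≤ siteE Fs.card B₁ M M' := by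
    simp only [← sum_mul, hν.sum, one_mul]
    exact avg_const_le hE
  simp only [mul_add, sum_add_distrib, mul_left_comm (ν _), ← mul_sum] at h2 h4 ⊢
  simp only [mul_left_comm ((n : ℝ)⁻¹) (siteC _ _ _ _ _), mul_left_comm ((n : ℝ)⁻¹) (siteK _ _ _ _)] at h2 h4 ⊢
  linarith

end Vale.Agent.P150.Fast.Ladder
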