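import Vale.Agent.P150.Fast.Cavity.Ladder.Event
import Vale.Agent.P150.Fast.Cavity.Ladder.Level

/-!
The cavity picture from its core (P150): on one of boundedly many levels the potentials are flat,
the core error is small there, and the cavity error follows at the time of that level.
-/

open MeasureTheory ProbabilityTheory Real Finset Filter
open scoped Matrix

namespace Vale.Agent.P150.Fast.Ladder

variable {n : ℕ}

theorem exp_tail (B : ℝ) (hB : 0 < B) (c : ℝ) : exp (c - B) ≤ exp c / B := by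
  rw [exp_sub]
  exact div_le_div_of_nonneg_left (exp_pos c).le hB ((by linarith : B ≤ B + 1).trans (add_one_le_exp B))

theorem sq_div_le {c B : ℝ} (hc : 0 ≤ c) (hB : 1 ≤ B) : c / B ^ 2 ≤ c / B :=
  div_le_div_of_nonneg_left hc (by linarith) (le_self_pow₀ hB two_ne_zero)

/-- The constants of a site can be chosen with small remainders. -/
theorem site_par (k : ℕ) {θ : ℝ} (hθ : 0 < θ) :
    ∃ B B₁ M M' : ℝ, 2 ≤ B ∧ B ≤ B₁ ∧ 1 ≤ M ∧ 1 ≤ M' ∧ 8 * exp (14 * B) ≤ M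
      ∧ siteE k B₁ M M' + siteK k B B₁ M' * 9 ≤ 3 * θ / 4 := by
  set c : ℝ := 4 + 2 * k with hc
  have hc0 : 0 < c := by positivity
  set r := θ / (8 * c) with hr
  have hr0 : 0 < r := by positivity
  set B := max 2 (16 * 9 / r) with hB
  have hB2 : 2 ≤ B := le_max_left _ _
  set B₁ := max B (32 * exp (2 * B) * 9 / r) with hB1
  have hB12 : B ≤ B₁ := le_max_left _ _
  set M := max (8 * exp (14 * B)) (4 * exp (20 * B₁) / r) with hM
  set M' := max 1 ((2 * (B₁ ^ 2 + 1) + 9) / r) with hM'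
  have hM1 : 1 ≤ M := le_trans (by linarith [one_le_exp (show 0 ≤ 14 * B by linarith)]) (le_max_left _ _)
  have hM'1 : 1 ≤ M' := le_max_left _ _
  have key : ∀ x y : ℝ, 0 < y → x / r ≤ y → x / y ≤ r := fun x y hy h => by
    rw [div_le_iff₀ hy]; rwa [div_le_iff₀ hr0, mul_comm] at h
  refine ⟨B, B₁, M, M', hB2, hB12, hM1, hM'1, le_max_left _ _, ?_⟩
  have t1 : 16 * 9 / B ^ 2 ≤ r :=
    (sq_div_le (by norm_num) (by linarith)).trans (key _ _ (by linarith) (le_max_right _ _))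
  have t2 : 32 * exp (2 * B) * 9 / B₁ ^ 2 ≤ r :=
    (sq_div_le (by positivity) (by linarith)).trans (key _ _ (by linarith) (le_max_right _ _))
  have t3 : 4 * exp (20 * B₁) / M ≤ r := key _ _ (by linarith) (le_max_right _ _)
  have t4 : (2 * (B₁ ^ 2 + 1) + 9) / M' ≤ r := key _ _ (by linarith) (le_max_right _ _)
  have e : siteE k B₁ M M' + siteK k B B₁ M' * 9
      = c * (16 * 9 / B ^ 2 + 32 * exp (2 * B) * 9 / B₁ ^ 2 + 4 * exp (20 * B₁) / M
        + (2 * (B₁ ^ 2 + 1) + 9) / M') := by rw [siteE, siteK, hc]; ring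
  rw [e]
  refine (mul_le_mul_of_nonneg_left (show _ ≤ 4 * r by linarith) hc0.le).trans ?_
  rw [hr, show c * (4 * (θ / (8 * c))) = θ / 2 by field_simp; ring]
  linarith

/-- The cut of a level for the flips. -/
noncomputable def lvlB₀ (ζ : ℝ) : ℝ := max 2 (max (72 / ζ) (exp 3 / ζ))

/-- The time of a level. -/
noncomputable def lvlT (κ ζ : ℝ) (H : ℕ) : ℕ :=
  max H ⌈max (2 * (H : ℝ) * (1 / slLow κ) / ζ) ((2 + 2 * exp (8 * lvlB₀ ζ + 12)) / ζ)⌉₊

/-- The cut of a level for the forms. -/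
noncomputable def lvlB (ζ : ℝ) (T : ℕ) : ℝ := max 2 ((T : ℝ) * (4 * 36 + 40 * exp 15) * 3 / ζ)

/-- The deep smoothing time of a level. -/
noncomputable def lvlH (κ ζ : ℝ) (T : ℕ) : ℕ :=
  max T ⌈max ((T : ℝ) / ζ) ((T : ℝ) * slD (lvlB ζ T) κ * 3 / ζ)⌉₊

/-- The levels. -/
noncomputable def lvl (κ ζ : ℝ) (K : ℕ) : ℕ → ℕ
  | 0 => 1
  | k + 1 => max ((K + 2) * lvl κ ζ K k) (2 * lvlH κ ζ (lvlT κ ζ (lvl κ ζ K k)))

theorem lvl_pos (κ ζ : ℝ) (K : ℕ) : ∀ k, 1 ≤ lvl κ ζ K k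
  | 0 => le_rfl
  | k + 1 => le_max_of_le_left (le_trans (lvl_pos κ ζ K k) (Nat.le_mul_of_pos_left _ (by omega)))

/-- The entropy allowed at a level. -/
noncomputable def lvlE (κ ζ : ℝ) (H : ℕ) : ℝ :=
  min ζ (min (ζ / (16 * exp (2 * lvlB₀ ζ)))
    (ζ / (96 * ((lvlT κ ζ H : ℝ) + 1) * exp (2 * lvlB ζ (lvlT κ ζ H)))))

theorem lvlE_pos (κ : ℝ) {ζ : ℝ} (hζ : 0 < ζ) (H : ℕ) : 0 < lvlE κ ζ H :=
  lt_min hζ (lt_min (by positivity) (by positivity))

theorem level_ok {κ ζ η : ℝ} (hκ : 0 < κ) (hζ : 0 < ζ) (H : ℕ) (hη : η ≤ lvlE κ ζ H) :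
    LevelOK κ ζ η (lvlB₀ ζ) (lvlB ζ (lvlT κ ζ H)) H (lvlT κ ζ H) (lvlH κ ζ (lvlT κ ζ H)) := by
  set T := lvlT κ ζ H with hT
  set B := lvlB ζ T with hB
  set B₀ := lvlB₀ ζ with hB₀
  set H' := lvlH κ ζ T with hH'
  have hB2 : 2 ≤ B := le_max_left _ _
  have hB02 : 2 ≤ B₀ := le_max_left _ _
  have key : ∀ x y : ℝ, 0 < y → x / ζ ≤ y → x / y ≤ ζ := fun x y hy h => by
    rw [div_le_iff₀ hy]; rwa [div_le_iff₀ hζ, mul_comm] at h
  have hTge : ∀ x : ℝ, x ≤ max (2 * (H : ℝ) * (1 / slLow κ) / ζ) ((2 + 2 * exp (8 * B₀ + 12)) / ζ) →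
      x ≤ 2 * (T : ℝ) + 1 := fun x hx => by
    have h1 : (⌈max (2 * (H : ℝ) * (1 / slLow κ) / ζ) ((2 + 2 * exp (8 * B₀ + 12)) / ζ)⌉₊ : ℝ) ≤ T := by
      exact Nat.cast_le.2 (le_max_right _ _)
    have := hx.trans ((Nat.le_ceil _).trans h1)
    linarith [Nat.cast_nonneg (α := ℝ) T]
  have hHge : ∀ x : ℝ, x ≤ max ((T : ℝ) / ζ) ((T : ℝ) * slD B κ * 3 / ζ) → x ≤ 2 * (H' : ℝ) + 1 := fun x hx => by
    have h1 : (⌈max ((T : ℝ) / ζ) ((T : ℝ) * slD B κ * 3 / ζ)⌉₊ : ℝ) ≤ H' := by exact_mod_cast le_max_right _ _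
    have := hx.trans ((Nat.le_ceil _).trans h1)
    linarith [Nat.cast_nonneg (α := ℝ) H']
  refine ⟨le_max_left _ _, le_max_left _ _, hB02, hB2, ?_, ?_, ?_, hη.trans (min_le_left _ _), ?_, ?_, ?_⟩
  · rw [mul_div_assoc']
    exact key _ _ (by positivity) (hTge _ (le_max_left _ _))
  · rw [mul_one_div]
    exact key _ _ (by positivity) (hHge _ (le_max_left _ _))
  · have a1 : (T : ℝ) * slD B κ * 3 / (2 * H' + 1) ≤ ζ := key _ _ (by positivity) (hHge _ (le_max_right _ _))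
    have a2 : (T : ℝ) * (4 * 36 + 40 * exp 15) * 3 / B ≤ ζ := key _ _ (by linarith) (le_max_right _ _)
    have a3 : 96 * ((T : ℝ) + 1) * exp (2 * B) * η ≤ ζ := by
      have h := hη.trans ((min_le_right _ _).trans (min_le_right _ _))
      rw [le_div_iff₀ (by positivity)] at h
      exact le_trans (le_of_eq (by ring)) h
    have b1 := mul_le_mul_of_nonneg_left (sq_div_le (show (0 : ℝ) ≤ 4 * 36 by norm_num) (show 1 ≤ B by linarith))
      (Nat.cast_nonneg T)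
    have b2 := mul_le_mul_of_nonneg_left (mul_le_mul_of_nonneg_left (exp_tail B (by linarith) 15)
      (show (0 : ℝ) ≤ 40 by norm_num)) (Nat.cast_nonneg T)
    have e1 : (T : ℝ) * (4 * 36 + 40 * exp 15) * 3 / B
        = 3 * ((T : ℝ) * (4 * 36 / B)) + 3 * ((T : ℝ) * (40 * (exp 15 / B))) := by ring
    have e2 : (T : ℝ) * slD B κ * 3 / (2 * H' + 1) = 3 * ((T : ℝ) * (slD B κ / (2 * H' + 1))) := by ring
    have e3 : (T : ℝ) * (4 * (8 * exp (2 * B) * η)) ≤ ζ / 3 := by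
      rcases le_total η 0 with h | h
      · exact le_trans (mul_nonpos_of_nonneg_of_nonpos (Nat.cast_nonneg T)
          (mul_nonpos_of_nonneg_of_nonpos (by norm_num) (mul_nonpos_of_nonneg_of_nonpos (by positivity) h)))
          (by positivity)
      · have := mul_nonneg (exp_pos (2 * B)).le h
        linarith
    have e4 : (T : ℝ) * (4 * (36 / B ^ 2)) = (T : ℝ) * (4 * 36 / B ^ 2) := by ring
    simp only [mul_add]
    linarith
  · exact key _ _ (by positivity) (hTge _ (le_max_right _ _))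
  · have h := hη.trans ((min_le_right _ _).trans (min_le_left _ _))
    rw [le_div_iff₀ (by positivity)] at h
    have h2 : 72 / B₀ ≤ ζ := key _ _ (by linarith) ((le_max_left _ _).trans (le_max_right _ _))
    have h3 := sq_div_le (show (0 : ℝ) ≤ 36 by norm_num) (show 1 ≤ B₀ by linarith)
    have h4 : 72 / B₀ = 2 * (36 / B₀) := by ring
    linarith
  · exact (exp_tail B₀ (by linarith) 3).trans
      (key _ _ (by linarith) ((le_max_right _ _).trans (le_max_right _ _)))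

/-- A bounded antitone potential is flat on one of the levels. -/
theorem exists_flat {f : ℕ → ℝ} {U z : ℝ} (hz : 0 < z) (h0 : ∀ k, 0 ≤ f k) (hU : ∀ k, f k ≤ U) (L : ℕ → ℕ) :
    ∃ k < ⌈U / z⌉₊ + 1, f (L k) - f (L (k + 1)) ≤ z := by
  by_contra h
  simp only [not_exists, not_and, not_le] at h
  set J := ⌈U / z⌉₊ + 1
  have hs : ∑ _k ∈ range J, z < ∑ k ∈ range J, (f (L k) - f (L (k + 1))) :=
    sum_lt_sum_of_nonempty ⟨0, mem_range.2 (Nat.succ_pos _)⟩ fun k hk => h k (mem_range.1 hk)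
  rw [sum_range_sub' (fun k => f (L k)), sum_const, card_range, nsmul_eq_mul] at hs
  have h2 : U / z ≤ J := (Nat.le_ceil _).trans (by exact_mod_cast Nat.le_succ _)
  rw [div_le_iff₀ hz] at h2
  linarith [h0 (L J), hU (L 0)]

/-- The cavity picture from its core. -/
theorem cavityStmt_of_core {β : ℝ} (hβ0 : 0 ≤ β) (hβ1 : β < 1) (hC : CoreStmt β) : CavityStmt β := by
  classical
  intro θ hθ Fs hFs
  have hβ : β ^ 2 ≤ 1 := by nlinarith
  obtain ⟨Bs, B₁, M, M', hBs, hB₁, hM, hM', hMB, hrem⟩ := site_par Fs.card hθ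
  set Gs := siteTests Fs Bs B₁ M M' with hGs
  have hG := siteTests_test hFs (B := Bs) (B₁ := B₁) hM hM'
  set C := siteC Fs.card Bs B₁ M M' with hCdef
  have hC0 : 0 < C := by rw [hCdef, siteC]; positivity
  set u := θ / (16 * C) with hu
  have hu0 : 0 < u := by positivity
  set c : ℝ := 40 * (Gs.card : ℝ) + 40 with hc
  have hc0 : 0 < c := by positivity
  set a := min 1 (u / c) with ha
  have ha0 : 0 < a := lt_min one_pos (by positivity)
  set ζ := u * a ^ 3 / c with hζ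
  have hζ0 : 0 < ζ := by positivity
  obtain ⟨κ, ϑ, K, hκ, hκ1, hϑ, hcore⟩ := hC u hu0 (Gs.image lift) (fun Φ hΦ => by
    obtain ⟨F, hF, rfl⟩ := mem_image.1 hΦ
    exact ⟨fun x y => (hG F hF).1 x, fun x y x' y' =>
      ((hG F hF).2 x x').trans (le_add_of_nonneg_right (abs_nonneg _))⟩)
  set z := min ζ ϑ with hz
  have hz0 : 0 < z := lt_min hζ0 hϑ
  set J := ⌈(1 + 2 * (Gs.card : ℝ)) / z⌉₊ + 1 with hJ
  set L := lvl κ ζ K with hL
  choose ηc hηc hev using fun k => hcore (L k) (lvl_pos κ ζ K k)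
  have hJne : (range J).Nonempty := ⟨0, mem_range.2 (Nat.succ_pos _)⟩
  set η := (range J).inf' hJne (fun k => min (ηc k) (lvlE κ ζ (L k))) with hη
  refine ⟨η, (range J).sup fun k => lvlT κ ζ (L k), (lt_inf'_iff _).2 fun k _ =>
    lt_min (hηc k) (lvlE_pos κ hζ0 _), fun δ hδ => ?_⟩
  have hδJ : 0 < δ / (2 * J) := by positivity
  filter_upwards [goodD_event hβ0 hβ1 (show 0 < u / 2 by linarith) (half_pos hδ),
    (range J).eventually_all.2 fun k _ => hev k (δ / (2 * J)) hδJ, eventually_ge_atTop 1] with n hgood hk hn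
  set Bad : ℕ → Set (Dis n) := fun k => {d | ¬ ∀ (ν : Conf n → ℝ) (S : Finset (Fin n)), (∀ x, 0 < ν x) →
          ∑ x, ν x = 1 →
          fieldE 0 ν (fun h => freeD (priorAt (aop n β d) 0 ν h) ⟨aop n β d, h, S⟩) ≤ ηc k * n →
          potDrop β d 0 κ ν S (Gs.image lift) (L k) ((K + 2) * L k) ≤ ϑ →
          coreErr β d 0 κ ν S (Gs.image lift) (L k) ≤ u}
  refine (measureReal_mono (s₂ := {d | ¬ GoodD β (u / 2) d} ∪ ⋃ k ∈ range J, Bad k) (fun d hd => ?_)
    (measure_ne_top _ _)).trans ?_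
  swap
  · have hb : (disX n).real (⋃ k ∈ range J, Bad k) ≤ δ / 2 := by
      refine (measureReal_biUnion_finset_le _ _).trans ((sum_le_sum hk).trans (le_of_eq ?_))
      rw [sum_const, card_range, nsmul_eq_mul]
      have : (J : ℝ) ≠ 0 := Nat.cast_ne_zero.2 (by omega)
      field_simp
    linarith [measureReal_union_le (μ := disX n) {d | ¬ GoodD β (u / 2) d} (⋃ k ∈ range J, Bad k)]
  by_contra hnot
  simp only [Set.mem_union, Set.mem_iUnion, not_or, not_exists, Bad, Set.mem_ofPred_eq, not_not] at hnot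
  obtain ⟨hgd, hcores⟩ := hnot
  refine hd fun ν S hν h1 hD => ?_
  have P : Prior ν := ⟨hν, h1⟩
  obtain ⟨k, hkJ, hflat⟩ := exists_flat (f := pot β d κ ν S Gs) hz0 (fun k => (pot_mem hgd P hκ hG k).1)
    (fun k => (pot_mem hgd P hκ hG k).2) L
  have hmem : k ∈ range J := mem_range.2 hkJ
  have hηk : η ≤ min (ηc k) (lvlE κ ζ (L k)) := inf'_le _ hmem
  set H := L k
  set T := lvlT κ ζ H
  set H' := lvlH κ ζ T
  have hnext : L (k + 1) = max ((K + 2) * H) (2 * H') := rfl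
  rw [hnext] at hflat
  have hanti := fun {p q : ℕ} (h : p ≤ q) => pot_anti (S := S) hgd P hκ Gs h
  have hdrop1 : pot β d κ ν S Gs H - pot β d κ ν S Gs ((K + 2) * H) ≤ ϑ := by
    linarith [hanti (le_max_left ((K + 2) * H) (2 * H')), min_le_right ζ ϑ]
  have hdrop2 : pot β d κ ν S Gs (2 * H) - pot β d κ ν S Gs (2 * H') ≤ ζ := by
    linarith [hanti (le_max_right ((K + 2) * H) (2 * H')), hanti (show H ≤ 2 * H by omega), min_le_left ζ ϑ]
  have hn' : (0 : ℝ) ≤ n := Nat.cast_nonneg n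
  have hce := hcores k hmem ν S hν h1
    (hD.trans (mul_le_mul_of_nonneg_right (hηk.trans (min_le_left _ _)) hn'))
    (by
      rw [potDrop, fieldE_zero' h1]
      linarith [pot_eq β d κ h1 S Gs H, pot_eq β d κ h1 S Gs ((K + 2) * H)])
  rw [coreErr_zero β d κ h1 S Gs H] at hce
  rw [fieldE_zero' h1, priorAt_zero' _ h1] at hD
  refine ⟨T, le_sup (f := fun k => lvlT κ ζ (L k)) hmem, ?_⟩
  rw [fieldE_zero' h1]
  refine (level_bound (S := S) hn hgd P hβ hκ hκ1 hFs hBs hB₁ hM hM' hMB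
    (level_ok hκ hζ0 H (hηk.trans (min_le_right _ _))) hD hdrop2 hce ha0 (min_le_left _ _)).trans ?_
  rw [← hGs, ← hCdef, ← hc]
  have e1 : c * a ≤ u := by
    have := mul_le_mul_of_nonneg_left (min_le_right 1 (u / c)) hc0.le
    rwa [mul_div_cancel₀ _ hc0.ne'] at this
  have e2 : c * (ζ / a ^ 3) = u := by rw [hζ]; field_simp
  have e3 : u + c * (a + ζ / a ^ 3) + 2 * (u / 2) ≤ 4 * u := by rw [mul_add]; linarith
  have e4 := mul_le_mul_of_nonneg_left e3 hC0.le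
  have e5 : C * (4 * u) = θ / 4 := by rw [hu]; field_simp; ring
  linarith

end Vale.Agent.P150.Fast.Ladder
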