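import Vale.Agent.P150.Fast.Cavity.Ladder.Form

/-!
Moves along the ladder (P150): the values of a test between levels, the variance between levels and
between times, and the infimum over normal means as a Lipschitz function of the values.
-/

open MeasureTheory ProbabilityTheory Real Finset
open scoped Matrix

namespace Vale.Agent.P150.Fast.Ladder

variable {n : ℕ} {β ε κ : ℝ} {d : Dis n} {ν : Conf n → ℝ} {S : Finset (Fin n)}

/-- The chance of the spin `b` seen from `T` steps before. -/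
noncomputable def pb (β : ℝ) (d : Dis n) (ν : Conf n → ℝ) (S : Finset (Fin n)) (T : ℕ) (i : Fin n)
    (b : Bool) (x : Conf n) : ℝ := powOp (nrm β d ν S) T (onVal i b) x

/-- A test at a spin seen from `T` steps before. -/
noncomputable def far (β : ℝ) (d : Dis n) (ν : Conf n → ℝ) (S : Finset (Fin n)) (T : ℕ) (i : Fin n)
    (b : Bool) (F : ℝ → ℝ) (x : Conf n) : ℝ :=
  powOp (nrm β d ν S) T (fun z => onVal i b z * obs β d F i z) x

/-- The potential of one test. -/
noncomputable def cw (β : ℝ) (d : Dis n) (κ : ℝ) (ν : Conf n → ℝ) (S : Finset (Fin n)) (i : Fin n)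
    (b : Bool) (F : ℝ → ℝ) (k : ℕ) : ℝ :=
  ip (wb ν i b) (obs β d F i) (powOp (frz β d κ ν S i b) k (obs β d F i))

/-- The potential of one spin. -/
noncomputable def cx (β : ℝ) (d : Dis n) (ν : Conf n → ℝ) (S : Finset (Fin n)) (i : Fin n) (k : ℕ) : ℝ :=
  ip ν (fun x => vec x i) (powOp (nrm β d ν S) k fun x => vec x i)

theorem pot_split (Gs : Finset (ℝ → ℝ)) (k : ℕ) : pot β d κ ν S Gs k
    = (n : ℝ)⁻¹ * (∑ i, cx β d ν S i k + ∑ i ∈ Sᶜ, ∑ b : Bool, ∑ F ∈ Gs, cw β d κ ν S i b F k) := rfl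

theorem abs_vec_le (x : Conf n) (i : Fin n) : |vec x i| ≤ 1 := (Vale.Agent.P150.abs_spin _).le

theorem cx_mem (hd : GoodD β ε d) (hν : Prior ν) (i : Fin n) (k : ℕ) :
    0 ≤ cx β d ν S i k ∧ cx β d ν S i k ≤ 1 := by
  have hK := nrm_psd hd.pd hν.pos S
  refine ⟨coef_nonneg hK _ k, ?_⟩
  have h := (powerThm _ ν _ hK fun x => vec x i).2.1 (Nat.zero_le k)
  exact h.trans (ip_self_le hK.wnn hν.sum.le fun x => abs_vec_le x i)

theorem cw_mem (hd : GoodD β ε d) (hν : Prior ν) (hκ : 0 < κ) (i : Fin n) (b : Bool) {F : ℝ → ℝ}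
    (hF : IsTest1 F) (k : ℕ) : 0 ≤ cw β d κ ν S i b F k ∧ cw β d κ ν S i b F k ≤ 1 := by
  have hK := frz_psd hd hκ hν.pos S i b
  refine ⟨coef_nonneg hK _ k, ?_⟩
  exact ((powerThm _ _ _ hK (obs β d F i)).2.1 (Nat.zero_le k)).trans
    (ip_self_le hK.wnn (wb_sum hν i b) fun x => hF.1 _)

/-- The values of a test at two levels are close when the potential is flat. -/
theorem win_close (hd : GoodD β ε d) (hν : Prior ν) (hκ : 0 < κ) (i : Fin n) (b : Bool) (F : ℝ → ℝ)
    {H H' : ℕ} (hH : H ≤ H') {a : ℝ} (ha : 0 < a) :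
    ∑ x, wb ν i b x * |win β d κ ν S i b F H x - win β d κ ν S i b F H' x|
      ≤ a + (cw β d κ ν S i b F (2 * H) - cw β d κ ν S i b F (2 * H')) / a := by
  have hK := frz_psd hd hκ hν.pos S i b
  obtain ⟨-, hanti, h3, -⟩ := powerThm _ _ _ hK (obs β d F i)
  set f := powOp (frz β d κ ν S i b) H (obs β d F i) - powOp (frz β d κ ν S i b) H' (obs β d F i) with hf
  have e : ∀ x, wb ν i b x * |win β d κ ν S i b F H x - win β d κ ν S i b F H' x| = wb ν i b x * |f x| := by
    intro x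
    by_cases hx : wb ν i b x = 0
    · simp [hx]
    · rw [win_supp i b F κ H hx, win_supp i b F κ H' hx, hf, Pi.sub_apply]
  have h2 : ip (wb ν i b) f f ≤ cw β d κ ν S i b F (2 * H) - cw β d κ ν S i b F (2 * H') := by
    refine (pow_plateau hK hH _).trans (le_of_eq ?_)
    rw [h3, h3, ← two_mul, ← two_mul]; rfl
  simp only [e]
  refine (l1_le_l2 hK.wnn (wb_sum hν i b) f).trans ?_
  have e2 : ∑ x, wb ν i b x * f x ^ 2 = ip (wb ν i b) f f := sum_congr rfl fun x _ => by ring
  rw [e2]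
  refine (sqrt_le_sqrt h2).trans (sqrt_le_lin ha ?_)
  exact sub_nonneg.2 (hanti (by omega))

/-- Far from the start a test at a spin is the chance of the spin times the smoothed value. -/
theorem far_close (hd : GoodD β ε d) (hν : Prior ν) (hκ : 0 < κ) (i : Fin n) (b : Bool) {F : ℝ → ℝ}
    (hF : IsTest1 F) (T : ℕ) {H H' : ℕ} (hH : H ≤ H') {a : ℝ} (ha : 0 < a) :
    ∑ x, ν x * |far β d ν S T i b F x - pb β d ν S T i b x * win β d κ ν S i b F H' x|
      ≤ 3 * a + (2 * H * (1 / slLow κ / (2 * T + 1))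
          + (cw β d κ ν S i b F (2 * H) - cw β d κ ν S i b F (2 * H'))
          + 2 * T * kForm ν (nrm β d ν S) (win β d κ ν S i b F H')) / a := by
  have hK := nrm_psd hd.pd hν.pos S
  have hQ := frz_psd hd hκ hν.pos S i b
  have hρ : ∀ x, onVal i b x ≤ 1 := fun x => by rw [onVal]; split <;> norm_num
  have hle : ∀ f, kForm (fun x => onVal i b x * ν x) (frz β d κ ν S i b) f
      ≤ 1 / slLow κ * kForm ν (nrm β d ν S) f := fun f => by
    have h := slice_le_normal (s := stp β d S) hν.pos hd.pd (frz_slice hd hκ S i b) f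
    simp only [one_mul] at h
    refine h.trans (mul_le_mul_of_nonneg_right ?_ (kForm_nonneg hK f))
    exact one_div_le_one_div_of_le (slLow_pos hκ) (slP_low hd hκ i)
  have s1 := frozen_transfer hK hQ hρ hν.sum.le (one_div_nonneg.2 (slLow_pos hκ).le) hle T H
    (obs β d F i) fun x => hF.1 _
  have s2 := win_close hd hν hκ i b F hH ha (S := S)
  have s3 := pow_mul_close hK hν.sum.le T (onVal i b) (win β d κ ν S i b F H') fun x => by
    rw [abs_of_nonneg (onVal_nonneg i b x)]; exact hρ x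
  set u1 : Conf n → ℝ := fun z => onVal i b z * (obs β d F i z
    - powOp (frz β d κ ν S i b) H (obs β d F i) z)
  set u2 : Conf n → ℝ := fun z => onVal i b z
    * (win β d κ ν S i b F H z - win β d κ ν S i b F H' z)
  set u3 : Conf n → ℝ := fun z => onVal i b z * win β d κ ν S i b F H' z
  have esplit : (fun z => onVal i b z * obs β d F i z)
      = fun z => 1 * (1 * u1 z + 1 * u2 z) + 1 * u3 z := by
    funext z
    simp only [u1, u2, u3]
    by_cases hz : onVal i b z = 0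
    · simp [hz]
    · rw [win_supp i b F κ H (mul_ne_zero hz (hν.pos z).ne')]; ring
  have hpt : ∀ x, |far β d ν S T i b F x - pb β d ν S T i b x * win β d κ ν S i b F H' x|
      ≤ |powOp (nrm β d ν S) T u1 x| + |powOp (nrm β d ν S) T u2 x|
        + |powOp (nrm β d ν S) T u3 x - powOp (nrm β d ν S) T (onVal i b) x * win β d κ ν S i b F H' x| := by
    intro x
    rw [far, esplit, powOp_lin, powOp_lin, pb]
    simp only [one_mul]
    rw [add_sub_assoc]
    exact (abs_add_le _ _).trans (add_le_add (abs_add_le _ _) le_rfl)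
  refine (sum_le_sum fun x _ => mul_le_mul_of_nonneg_left (hpt x) (hν.pos x).le).trans ?_
  simp only [mul_add, sum_add_distrib]
  have k2 : ∑ x, ν x * |powOp (nrm β d ν S) T u2 x|
      ≤ ∑ x, wb ν i b x * |win β d κ ν S i b F H x - win β d κ ν S i b F H' x| :=
    (pow_l1 hK T u2).trans (le_of_eq (sum_congr rfl fun x _ => by
      simp only [u2, wb, abs_mul, abs_of_nonneg (onVal_nonneg i b x)]; ring))
  have hc : 0 ≤ 1 / slLow κ / (2 * (T : ℝ) + 1) :=
    div_nonneg (one_div_nonneg.2 (slLow_pos hκ).le) (by positivity)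
  have k1 := s1.trans (sqrt_le_lin ha (by positivity))
  have k3 := s3.trans (sqrt_le_lin ha (mul_nonneg (by positivity) (kForm_nonneg hK _)))
  rw [add_div, add_div]
  linarith

/-- The overlap moves by at most twice the mean move of the magnetisations. -/
theorem rvar_diff (hd : GoodD β ε d) (hν : Prior ν) (hβ : β ^ 2 ≤ 1) (k l : ℕ) (x z : Conf n) :
    |rvar β d ν S k x - rvar β d ν S l z|
      ≤ 2 * ((n : ℝ)⁻¹ * ∑ i, |powOp (nrm β d ν S) k (fun y => vec y i) x
          - powOp (nrm β d ν S) l (fun y => vec y i) z|) := by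
  have hm : ∀ k' (y : Conf n) i, |powOp (nrm β d ν S) k' (fun y => vec y i) y| ≤ 1 := fun k' y i =>
    powOp_abs_le (nrm_psd hd.pd hν.pos S) k' (fun w => abs_vec_le w i) y
  simp only [rvar, farR, farQ, farMag, farOp_zero β d hν.sum]
  rw [← mul_sub, sub_sub_sub_cancel_left, abs_mul, abs_of_nonneg (sq_nonneg β)]
  refine (mul_le_of_le_one_left (abs_nonneg _) hβ).trans ?_
  rw [← mul_sub, ← sum_sub_distrib, abs_mul, abs_of_nonneg (inv_nonneg.2 (Nat.cast_nonneg n)),
    mul_left_comm, mul_sum]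
  refine mul_le_mul_of_nonneg_left ((abs_sum_le_sum_abs _ _).trans (sum_le_sum fun i _ => ?_)) (by positivity)
  rw [sq_sub_sq, abs_mul, abs_sub_comm (powOp (nrm β d ν S) l _ z)]
  exact mul_le_mul_of_nonneg_right ((abs_add_le _ _).trans (by linarith [hm l z i, hm k x i]))
    (abs_nonneg _)

theorem avg_le_of_forall (hn : 0 < n) {f : Fin n → ℝ} {c : ℝ} {g : Fin n → ℝ}
    (h : ∀ i, f i ≤ c + g i) : (n : ℝ)⁻¹ * ∑ i, f i ≤ c + (n : ℝ)⁻¹ * ∑ i, g i := by
  refine (mul_le_mul_of_nonneg_left (sum_le_sum fun i _ => h i) (by positivity)).trans (le_of_eq ?_)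
  rw [sum_add_distrib, sum_const, card_univ, Fintype.card_fin, nsmul_eq_mul, mul_add, ← mul_assoc,
    inv_mul_cancel₀ (by positivity), one_mul]

/-- The variances at two levels are close when the potential is flat. -/
theorem rvar_close (hn : 0 < n) (hd : GoodD β ε d) (hν : Prior ν) (hβ : β ^ 2 ≤ 1) {k l : ℕ}
    (hkl : k ≤ l) {a : ℝ} (ha : 0 < a) :
    ∑ x, ν x * |rvar β d ν S k x - rvar β d ν S l x|
      ≤ 2 * (a + ((n : ℝ)⁻¹ * ∑ i, (cx β d ν S i (2 * k) - cx β d ν S i (2 * l))) / a) := by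
  have hK := nrm_psd hd.pd hν.pos S
  refine (sum_le_sum fun x _ => mul_le_mul_of_nonneg_left (rvar_diff hd hν hβ k l x x) (hν.pos x).le).trans ?_
  rw [sum_congr rfl fun x _ => mul_left_comm (ν x) 2 _, ← mul_sum]
  refine mul_le_mul_of_nonneg_left ?_ two_pos.le
  rw [sum_congr rfl fun x _ => mul_left_comm (ν x) ((n : ℝ)⁻¹) _, ← mul_sum]
  simp only [mul_sum (s := (univ : Finset (Fin n)))]
  rw [sum_comm, ← mul_sum, mul_div_assoc, sum_div]
  refine avg_le_of_forall hn fun i => ?_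
  obtain ⟨-, hanti, h3, -⟩ := powerThm _ ν _ hK fun y => vec y i
  refine (l1_le_l2 hK.wnn hν.sum.le _).trans ?_
  have h2 : ∑ x, ν x * (powOp (nrm β d ν S) k (fun y => vec y i) x
      - powOp (nrm β d ν S) l (fun y => vec y i) x) ^ 2
      ≤ cx β d ν S i (2 * k) - cx β d ν S i (2 * l) := by
    have h := pow_plateau hK hkl fun y => vec y i
    rw [h3, h3, ← two_mul, ← two_mul] at h
    exact le_trans (le_of_eq (sum_congr rfl fun x _ => by simp only [Pi.sub_apply]; ring)) h
  exact (sqrt_le_sqrt h2).trans (sqrt_le_lin ha (sub_nonneg.2 (hanti (by omega))))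

theorem powOp_sum {ι κ' : Type} [Fintype ι] (K : ι → ι → ℝ) (k : ℕ) (s : Finset κ') (g : κ' → ι → ℝ)
    (c : ℝ) : powOp K k (fun z => c * ∑ j ∈ s, g j z) = fun x => c * ∑ j ∈ s, powOp K k (g j) x := by
  induction k with
  | zero => rfl
  | succ k ih =>
    rw [powOp_succ, ih]
    funext x
    simp only [fun j => powOp_succ K k (g j)]
    simp only [powOp, Function.iterate_one, mul_sum]
    rw [sum_comm]
    exact sum_congr rfl fun z _ => sum_congr rfl fun w _ => by ring

/-- The variance of a smoothed level moves little between two times. -/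
theorem rvar_two_time (hn : 0 < n) (hd : GoodD β ε d) (hν : Prior ν) (hβ : β ^ 2 ≤ 1) (T H : ℕ)
    {a : ℝ} (ha : 0 < a) :
    ∑ x, ν x * powOp (nrm β d ν S) T (fun z => |rvar β d ν S H z - rvar β d ν S H x|) x
      ≤ 2 * (a + T * (1 / (2 * H + 1)) / a) := by
  have hK := nrm_psd hd.pd hν.pos S
  set f := fun i => powOp (nrm β d ν S) H (fun y => vec y i)
  have hpt : ∀ x, powOp (nrm β d ν S) T (fun z => |rvar β d ν S H z - rvar β d ν S H x|) x
      ≤ 2 * ((n : ℝ)⁻¹ * ∑ i, powOp (nrm β d ν S) T (fun z => |f i z - f i x|) x) := by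
    intro x
    refine (powOp_mono hK T (fun z => rvar_diff hd hν hβ H H z x) x).trans (le_of_eq ?_)
    rw [show (fun z => 2 * ((n : ℝ)⁻¹ * ∑ i, |f i z - f i x|))
        = fun z => 2 * (n : ℝ)⁻¹ * ∑ i, |f i z - f i x| from funext fun z => (mul_assoc _ _ _).symm,
      powOp_sum]
    exact mul_assoc _ _ _
  refine (sum_le_sum fun x _ => mul_le_mul_of_nonneg_left (hpt x) (hν.pos x).le).trans ?_
  rw [sum_congr rfl fun x _ => mul_left_comm (ν x) 2 _, ← mul_sum]
  refine mul_le_mul_of_nonneg_left ?_ two_pos.le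
  rw [sum_congr rfl fun x _ => mul_left_comm (ν x) ((n : ℝ)⁻¹) _, ← mul_sum]
  simp only [mul_sum (s := (univ : Finset (Fin n)))]
  rw [sum_comm]
  refine (avg_le_of_forall hn (c := a + T * (1 / (2 * H + 1)) / a) (g := fun _ => 0) fun i => ?_).trans
    (by simp)
  rw [add_zero]
  refine (two_time hK hν.sum.le T (f i) ha).trans (add_le_add le_rfl
    (div_le_div_of_nonneg_right (mul_le_mul_of_nonneg_left ((smooth_form hK H _).trans
      (div_le_div_of_nonneg_right (ip_self_le hK.wnn hν.sum.le fun x => abs_vec_le x i)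
        (by positivity))) (by positivity)) ha.le))

/-- The least distance of values from one normal law. -/
noncomputable def devOf (Gs : Finset (ℝ → ℝ)) (w : (ℝ → ℝ) → ℝ) (v : ℝ) : ℝ :=
  ⨅ a : ℝ, ∑ F ∈ Gs, |w F - nE a v F|

theorem dev_eq (Gs : Finset (ℝ → ℝ)) (H : ℕ) (i : Fin n) (b : Bool) (x : Conf n) :
    dev β d κ ν S Gs H i b x
      = devOf Gs (fun F => win β d κ ν S i b F H x) (rvar β d ν S H x) := rfl

theorem devOf_bdd (Gs : Finset (ℝ → ℝ)) (w : (ℝ → ℝ) → ℝ) (v : ℝ) :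
    BddBelow (Set.range fun a : ℝ => ∑ F ∈ Gs, |w F - nE a v F|) :=
  ⟨0, by rintro _ ⟨a, rfl⟩; exact sum_nonneg fun F _ => abs_nonneg _⟩

theorem devOf_exists (Gs : Finset (ℝ → ℝ)) (w : (ℝ → ℝ) → ℝ) (v : ℝ) {e : ℝ} (he : 0 < e) :
    ∃ a : ℝ, ∑ F ∈ Gs, |w F - nE a v F| ≤ devOf Gs w v + e := by
  obtain ⟨a, ha⟩ := exists_lt_of_ciInf_lt (show devOf Gs w v < devOf Gs w v + e by linarith)
  exact ⟨a, ha.le⟩

theorem devOf_lip {Gs : Finset (ℝ → ℝ)} (hG : ∀ F ∈ Gs, IsTest1 F) (w w' : (ℝ → ℝ) → ℝ)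
    {v v' a : ℝ} (hv : 0 ≤ v) (hv' : 0 ≤ v') (ha : 0 < a) :
    devOf Gs w v ≤ devOf Gs w' v' + ∑ F ∈ Gs, |w F - w' F| + (Gs.card : ℝ) * (a + |v - v'| / a) := by
  rw [add_assoc, ← sub_le_iff_le_add]
  refine le_ciInf fun t => ?_
  rw [sub_le_iff_le_add, ← nsmul_eq_mul, ← sum_const, ← sum_add_distrib, ← sum_add_distrib]
  refine (ciInf_le (devOf_bdd Gs w v) t).trans (sum_le_sum fun F hF => ?_)
  have h1 := nE_shift_le (hG F hF) t t v v'
  rw [sub_self, abs_zero, zero_add] at h1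
  have h2 : |√v - √v'| ≤ a + |v - v'| / a := by
    refine le_trans ?_ (sqrt_le_lin ha (abs_nonneg (v - v')))
    refine abs_le_sqrt ?_
    have e : (√v - √v') * (√v + √v') = v - v' := by
      linear_combination mul_self_sqrt hv - mul_self_sqrt hv'
    rw [← e, abs_mul, abs_of_nonneg (add_nonneg (sqrt_nonneg v) (sqrt_nonneg v')), ← sq_abs, pow_two]
    exact mul_le_mul_of_nonneg_left (abs_le.2 ⟨by linarith [sqrt_nonneg v], by linarith [sqrt_nonneg v']⟩)
      (abs_nonneg _)
  have h4 := abs_sub_le (w F) (w' F) (nE t v F)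
  have h5 := abs_sub_le (w' F) (nE t v' F) (nE t v F)
  rw [abs_sub_comm (nE t v' F)] at h5
  linarith

end Vale.Agent.P150.Fast.Ladder
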