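import Vale.Agent.P150.Fast.Cavity.Ladder.Tests

/-!
The cavity picture at one site from finitely many tests (P150): a normal field for both values of
the spin, with the exchange identity, forces the magnetisation to be the hyperbolic tangent.
-/

open MeasureTheory ProbabilityTheory Real Finset
open scoped Matrix

namespace Vale.Agent.P150.Fast.Ladder

/-- The constants of a site. -/
noncomputable def siteC (k : ℕ) (B B₁ M M' : ℝ) : ℝ :=
  (4 + 2 * k) * (22 * exp (2 * B) * M + 3 * M * exp (8 * B₁) + M' + 1)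

/-- The error of the clips at a site. -/
noncomputable def siteE (k : ℕ) (B₁ M M' : ℝ) : ℝ :=
  (4 + 2 * k) * (4 * exp (20 * B₁) / M + 2 * (B₁ ^ 2 + 1) / M')

/-- The cost of large fields at a site. -/
noncomputable def siteK (k : ℕ) (B B₁ M' : ℝ) : ℝ :=
  (4 + 2 * k) * (1 / M' + 16 / B ^ 2 + 32 * exp (2 * B) / B₁ ^ 2)

theorem abs_nE_le {F : ℝ → ℝ} (hF : IsTest1 F) (a v : ℝ) : |nE a v F| ≤ 1 := by
  rw [nE, ← Real.norm_eq_abs]
  exact (norm_integral_le_of_norm_le (integrable_const (1 : ℝ))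
    (ae_of_all _ fun g => hF.1 _)).trans_eq (by simp)

/-- Two tests near their normal means give the exchange identity of the means. -/
theorem pair_means {p q x₁ x₀ n₁ n₀ δ₀ δ₁ M : ℝ} (hM : 0 < M)
    (h0 : |x₁ - p * (1 / (3 * M) * n₁)| + |x₀ - q * (1 / (3 * M) * n₀)| ≤ δ₀) (h1 : |x₁ - x₀| ≤ δ₁) :
    |p * n₁ - q * n₀| ≤ 3 * M * (δ₀ + δ₁) := by
  have e : p * n₁ - q * n₀ = 3 * M * ((x₁ - x₀) - (x₁ - p * (1 / (3 * M) * n₁))
      + (x₀ - q * (1 / (3 * M) * n₀))) := by field_simp; ring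
  rw [e, abs_mul, abs_of_pos (show 0 < 3 * M by linarith)]
  refine mul_le_mul_of_nonneg_left ?_ (by linarith)
  have := (abs_add_le ((x₁ - x₀) - (x₁ - p * (1 / (3 * M) * n₁))) (x₀ - q * (1 / (3 * M) * n₀))).trans
    (add_le_add (abs_sub _ _) le_rfl)
  linarith

theorem mix_close {p q Y Y' Z Z' D E : ℝ} (hp : 0 ≤ p) (hq : 0 ≤ q) (hpq : p + q = 1)
    (h : |p * Y - q * Y'| ≤ D) (hy : |Y - Z| ≤ E) (hy' : |Y' - Z'| ≤ E) : |p * Z - q * Z'| ≤ D + E := by
  have e : p * Z - q * Z' = (p * Y - q * Y') - (p * (Y - Z) - q * (Y' - Z')) := by ring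
  rw [e]
  refine (abs_sub _ _).trans (add_le_add h ((abs_sub _ _).trans ?_))
  rw [abs_mul, abs_mul, abs_of_nonneg hp, abs_of_nonneg hq]
  have := mul_le_mul_of_nonneg_left hy hp
  have := mul_le_mul_of_nonneg_left hy' hq
  have : p * E + q * E = E := by rw [← add_mul, hpq, one_mul]
  linarith

/-- Bounded candidates: the magnetisation is the hyperbolic tangent, and the candidates agree. -/
theorem gibbs_both {p q a₁ a₀ v B M D : ℝ} (hp : 0 ≤ p) (hq : 0 ≤ q) (hpq : p + q = 1) (hv : 0 ≤ v)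
    (hvB : v ≤ B) (hM : 0 < M) (ha₁ : |a₁| ≤ B) (ha₀ : |a₀| ≤ B)
    (g : |p * nE a₁ v (fun u => clipT M 2 u * sig false u)
      - q * nE a₀ v (fun u => clipT M 2 u * sig true u)| ≤ D)
    (g' : |p * nE a₁ v (fun u => clipT M (-2) u * sig false u)
      - q * nE a₀ v (fun u => clipT M (-2) u * sig true u)| ≤ D) :
    |p - q - tanh (p * (a₁ - v) + q * (a₀ + v))| ≤ (2 + exp (8 * B)) * (D + 4 * exp (12 * B) / M)
      ∧ p * q * |a₁ - v - (a₀ + v)| ≤ exp (8 * B) * (D + 4 * exp (12 * B) / M) := by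
  refine ⟨gibbs_step hp hq hpq hv hvB ha₁ ha₀ hM g g', ?_⟩
  have c1 := nE_clip_one hv hvB hM ha₁ false
  have c2 := nE_clip_val hv hvB hM ha₀ true
  have c3 := nE_clip_val hv hvB hM ha₁ false
  have c4 := nE_clip_one hv hvB hM ha₀ true
  simp only [spin, if_true, Bool.false_eq_true, if_false, mul_one, mul_neg, neg_neg, neg_mul]
    at c1 c2 c3 c4
  have g1 := mix_close hp hq hpq g c1 c2
  have g2 := mix_close hp hq hpq g' c3 c4
  rw [mul_one, show 2 * a₀ + 2 * v = 2 * (a₀ + v) by ring] at g1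
  rw [mul_one, show -(2 * a₁) + 2 * v = -(2 * (a₁ - v)) by ring] at g2
  have h := gibbs_gap hp hq hpq (show |a₁ - v| ≤ 2 * B by rw [abs_le]; constructor <;> linarith [abs_le.1 ha₁])
    (show |a₀ + v| ≤ 2 * B by rw [abs_le]; constructor <;> linarith [abs_le.1 ha₀]) g1 g2
  rwa [show 4 * (2 * B) = 8 * B by ring] at h

/-- A small field of one spin gives weight to the other spin. -/
theorem other_weight {p q a₁ a₀ v B M D : ℝ} (hp : 0 ≤ p) (hq : 0 ≤ q) (hv : 0 ≤ v) (hvB : v ≤ B)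
    (hM : 0 < M) (hMB : 8 * exp (14 * B) ≤ M)
    (g : |p * nE a₁ v (fun u => clipT M 2 u * sig false u)
      - q * nE a₀ v (fun u => clipT M 2 u * sig true u)| ≤ D)
    (g' : |p * nE a₁ v (fun u => clipT M (-2) u * sig false u)
      - q * nE a₀ v (fun u => clipT M (-2) u * sig true u)| ≤ D) :
    (|a₀| ≤ B → exp (-(2 * B)) / 2 * q ≤ p + D) ∧ (|a₁| ≤ B → exp (-(2 * B)) / 2 * p ≤ q + D) := by
  have hE : 4 * exp (12 * B) / M ≤ exp (-(2 * B)) / 2 := by
    rw [div_le_iff₀ hM, div_mul_eq_mul_div, le_div_iff₀ two_pos]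
    calc 4 * exp (12 * B) * 2 = exp (-(2 * B)) * (8 * exp (14 * B)) := by
          rw [mul_left_comm (exp (-(2 * B))), ← exp_add]; ring_nf
      _ ≤ exp (-(2 * B)) * M := mul_le_mul_of_nonneg_left hMB (exp_pos _).le
  constructor <;> intro ha
  · have c := (abs_le.1 (nE_clip_val hv hvB hM ha true)).1
    have l := mul_le_mul_of_nonneg_left (nE_clip_sig_le hM.le false a₁ v) hp
    simp only [spin, if_true, Bool.false_eq_true, if_false, mul_one, mul_neg, neg_neg] at c l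
    have : exp (-(2 * B)) ≤ exp (2 * a₀ + 2 * v) := exp_le_exp.2 (by linarith [neg_le_of_abs_le ha])
    have := mul_le_mul_of_nonneg_left (show exp (-(2 * B)) / 2 ≤ nE a₀ v
      (fun u => clipT M 2 u * sig true u) by linarith) hq
    linarith [(abs_le.1 g).1]
  · have c := (abs_le.1 (nE_clip_val hv hvB hM ha false)).1
    have l := mul_le_mul_of_nonneg_left (nE_clip_sig_le hM.le true a₀ v) hq
    simp only [spin, if_true, Bool.false_eq_true, if_false, mul_one, mul_neg, neg_mul] at c l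
    have : exp (-(2 * B)) ≤ exp (-(2 * a₁) + 2 * v) := exp_le_exp.2 (by linarith [le_of_abs_le ha])
    have := mul_le_mul_of_nonneg_left (show exp (-(2 * B)) / 2 ≤ nE a₁ v
      (fun u => clipT M (-2) u * sig false u) by linarith) hp
    linarith [(abs_le.1 g').2]

/-- The mean field from the test of the identity. -/
theorem mean_close {p q x₁ x₀ a₁ a₀ v B M zb z2 δ₀ : ℝ} (hp : 0 ≤ p) (hq : 0 ≤ q) (hpq : p + q = 1)
    (hv : 0 ≤ v) (hv1 : v ≤ 1) (hM : 1 ≤ M) (ha₁ : |a₁| ≤ B) (ha₀ : |a₀| ≤ B)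
    (hz : |zb - M * (x₁ + x₀)| ≤ z2 / M)
    (h0 : |x₁ - p * nE a₁ v (idT M)| + |x₀ - q * nE a₀ v (idT M)| ≤ δ₀) :
    |zb - (p * a₁ + q * a₀)| ≤ z2 / M + M * δ₀ + 2 * (B ^ 2 + 1) / M := by
  have hM0 : 0 < M := by linarith
  have hn : ∀ a, |a| ≤ B → |M * nE a v (idT M) - a| ≤ 2 * (B ^ 2 + 1) / M := fun a h => by
    refine (nE_idT hM a hv).trans (div_le_div_of_nonneg_right ?_ hM0.le)
    have := pow_le_pow_left₀ (abs_nonneg _) h 2
    rw [sq_abs] at this
    linarith
  set n₁ := nE a₁ v (idT M)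
  set n₀ := nE a₀ v (idT M)
  rw [show zb - (p * a₁ + q * a₀) = (zb - M * (x₁ + x₀)) + M * ((x₁ - p * n₁) + (x₀ - q * n₀))
    + (p * (M * n₁ - a₁) + q * (M * n₀ - a₀)) by ring]
  refine (abs_add_le _ _).trans (add_le_add ((abs_add_le _ _).trans (add_le_add hz ?_)) ?_)
  · rw [abs_mul, abs_of_pos hM0]
    exact mul_le_mul_of_nonneg_left ((abs_add_le _ _).trans h0) hM0.le
  · refine (abs_add_le _ _).trans ?_
    rw [abs_mul, abs_mul, abs_of_nonneg hp, abs_of_nonneg hq]
    have := mul_le_mul_of_nonneg_left (hn a₁ ha₁) hp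
    have := mul_le_mul_of_nonneg_left (hn a₀ ha₀) hq
    have : p * (2 * (B ^ 2 + 1) / M) + q * (2 * (B ^ 2 + 1) / M) = 2 * (B ^ 2 + 1) / M := by
      rw [← add_mul, hpq, one_mul]
    linarith

/-- A test at the cavity field against the two candidates. -/
theorem field_gap {F : ℝ → ℝ} (hF : IsTest1 F) {p q x₁ x₀ a₁ a₀ v μ : ℝ} (hp : 0 ≤ p) (hq : 0 ≤ q)
    (hpq : p + q = 1) :
    |x₁ - p * nE (μ + v) v F| + |x₀ - q * nE (μ + -v) v F|
      ≤ |x₁ - p * nE a₁ v F| + |x₀ - q * nE a₀ v F|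
        + (|μ - (p * (a₁ - v) + q * (a₀ + v))| + 2 * (p * q * |a₁ - v - (a₀ + v)|)) := by
  set mx := p * (a₁ - v) + q * (a₀ + v) with hmx
  have hn : ∀ a a', |nE a v F - nE a' v F| ≤ |a - a'| := fun a a' =>
    (nE_shift_le hF a a' v v).trans_eq (by simp)
  have h1 : |x₁ - p * nE (μ + v) v F| ≤ |x₁ - p * nE a₁ v F| + p * |μ + v - a₁| := by
    refine (abs_sub_le _ (p * nE a₁ v F) _).trans (add_le_add le_rfl ?_)
    rw [← mul_sub, abs_mul, abs_of_nonneg hp, abs_sub_comm]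
    exact mul_le_mul_of_nonneg_left (hn _ _) hp
  have h0 : |x₀ - q * nE (μ + -v) v F| ≤ |x₀ - q * nE a₀ v F| + q * |μ + -v - a₀| := by
    refine (abs_sub_le _ (q * nE a₀ v F) _).trans (add_le_add le_rfl ?_)
    rw [← mul_sub, abs_mul, abs_of_nonneg hq, abs_sub_comm]
    exact mul_le_mul_of_nonneg_left (hn _ _) hq
  have e1 : μ + v - a₁ = (μ - mx) + -(q * (a₁ - v - (a₀ + v))) := by
    rw [hmx]; linear_combination (a₁ - v) * hpq
  have e0 : μ + -v - a₀ = (μ - mx) + p * (a₁ - v - (a₀ + v)) := by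
    rw [hmx]; linear_combination (a₀ + v) * hpq
  have k1 := mul_le_mul_of_nonneg_left ((abs_add_le (μ - mx) (-(q * (a₁ - v - (a₀ + v)))))) hp
  have k0 := mul_le_mul_of_nonneg_left ((abs_add_le (μ - mx) (p * (a₁ - v - (a₀ + v))))) hq
  rw [← e1, abs_neg, abs_mul, abs_of_nonneg hq, mul_add, ← mul_assoc] at k1
  rw [← e0, abs_mul, abs_of_nonneg hp, mul_add, ← mul_assoc, mul_comm q p] at k0
  have : p * |μ - mx| + q * |μ - mx| = |μ - mx| := by rw [← add_mul, hpq, one_mul]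
  linarith

/-- A weight is paid by the test of a field it puts beyond `R`. -/
theorem big_weight {R P x a v : ℝ} (hR : 2 ≤ R) (ha : R ≤ |a|) (hP : 0 ≤ P) :
    P ≤ 2 * |x - P * nE a v (outT R)| + 2 * x := by
  have := mul_le_mul_of_nonneg_left (nE_outT_ge hR ha v) hP
  linarith [neg_le_abs (x - P * nE a v (outT R))]

/-- One large candidate costs a test or a large field. -/
theorem large_cost {p q x₁ x₀ a₁ a₀ v B B₁ M D z2 δ₀ δ₁ : ℝ} (hp : 0 ≤ p) (hq : 0 ≤ q) (hpq : p + q = 1)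
    (hB : 2 ≤ B) (hB₁ : B ≤ B₁) (hM : 1 ≤ M) (hD : D ≤ 3 * M * (δ₀ + δ₁)) (hδ₁ : 0 ≤ δ₁)
    (hz : x₁ + x₀ ≤ 4 * z2 / B₁ ^ 2) (ha : B₁ ≤ |a₁|)
    (h0 : |x₁ - p * nE a₁ v (outT B₁)| + |x₀ - q * nE a₀ v (outT B₁)| ≤ δ₀)
    (hw : exp (-(2 * B)) / 2 * q ≤ p + D) :
    1 ≤ 22 * exp (2 * B) * M * (δ₀ + δ₁) + 32 * exp (2 * B) / B₁ ^ 2 * z2 := by
  have hδ0 : 0 ≤ δ₀ := le_trans (add_nonneg (abs_nonneg _) (abs_nonneg _)) h0
  have hx0 : -δ₀ ≤ x₀ := by
    have : 0 ≤ q * nE a₀ v (outT B₁) := mul_nonneg hq (integral_nonneg fun g => (outT_mem B₁ _).1)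
    linarith [neg_abs_le (x₀ - q * nE a₀ v (outT B₁)), abs_nonneg (x₁ - p * nE a₁ v (outT B₁))]
  have hP : p ≤ 4 * δ₀ + 8 * z2 / B₁ ^ 2 := by
    have := big_weight (x := x₁) (v := v) (hB.trans hB₁) ha hp
    linarith [abs_nonneg (x₀ - q * nE a₀ v (outT B₁)),
      show 2 * (4 * z2 / B₁ ^ 2) = 8 * z2 / B₁ ^ 2 by ring]
  have he : exp (-(2 * B)) ≤ 1 := exp_le_one_iff.2 (by linarith)
  have hh : exp (-(2 * B)) / 2 ≤ 2 * p + D := by
    have := mul_le_mul_of_nonneg_right he hp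
    rw [show q = 1 - p by linarith] at hw
    linarith
  have h4 := mul_le_mul_of_nonneg_left hh (show 0 ≤ 2 * exp (2 * B) by positivity)
  rw [show 2 * exp (2 * B) * (exp (-(2 * B)) / 2) = exp (2 * B) * exp (-(2 * B)) by ring,
    ← exp_add, add_neg_cancel, exp_zero] at h4
  have h5 := mul_le_mul_of_nonneg_left hP (show 0 ≤ 4 * exp (2 * B) by positivity)
  have h6 := mul_le_mul_of_nonneg_left hD (show 0 ≤ 2 * exp (2 * B) by positivity)
  have h7 : exp (2 * B) * δ₀ ≤ exp (2 * B) * M * (δ₀ + δ₁) :=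
    mul_le_mul (le_mul_of_one_le_right (exp_pos _).le hM) (by linarith) hδ0 (by positivity)
  have h8 : 4 * exp (2 * B) * (8 * z2 / B₁ ^ 2) = 32 * exp (2 * B) / B₁ ^ 2 * z2 := by ring
  linarith

theorem err_le {Fs : Finset (ℝ → ℝ)} (hFs : ∀ F ∈ Fs, IsTest1 F) (P : Bool → ℝ)
    (X : Bool → (ℝ → ℝ) → ℝ) (μ v : ℝ) (hP : ∀ b, 0 ≤ P b) (hP1 : P true + P false = 1)
    (hX : ∀ b, ∀ F ∈ Fs, |X b F| ≤ P b) :
    |P true - P false - tanh μ| + ∑ F ∈ Fs, ∑ b : Bool, |X b F - P b * nE (μ + spin b * v) v F|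
      ≤ 4 + 2 * Fs.card := by
  have hb : ∀ F ∈ Fs, ∀ b, |X b F - P b * nE (μ + spin b * v) v F| ≤ 2 * P b := fun F hF b => by
    refine (abs_sub _ _).trans ?_
    rw [abs_mul, abs_of_nonneg (hP b)]
    have := mul_le_of_le_one_right (hP b) (abs_nE_le (hFs F hF) (μ + spin b * v) v)
    linarith [hX b F hF]
  have hs := sum_le_sum (f := fun F => ∑ b : Bool, |X b F - P b * nE (μ + spin b * v) v F|)
    (g := fun _ => (2 : ℝ)) fun F (hF : F ∈ Fs) => by
    rw [Fintype.sum_bool]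
    exact (add_le_add (hb F hF true) (hb F hF false)).trans (by linarith)
  rw [sum_const, nsmul_eq_mul] at hs
  have ht : |P true - P false - tanh μ| ≤ 4 := by
    have := abs_le.1 (abs_tanh_lt_one μ).le
    rw [abs_le]; constructor <;> linarith [hP true, hP false]
  linarith

/-- A site where finitely many tests see normal fields obeys the cavity picture. -/
theorem site_bound {Fs Gs : Finset (ℝ → ℝ)} (hFs : ∀ F ∈ Fs, IsTest1 F) (hsub : Fs ⊆ Gs)
    {B B₁ M M' : ℝ} (hB : 2 ≤ B) (hB₁ : B ≤ B₁) (hM : 1 ≤ M) (hM' : 1 ≤ M')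
    (hMB : 8 * exp (14 * B) ≤ M) (hG : ∀ b b' : Bool, gT M (2 * spin b') b ∈ Gs) (hO : outT B ∈ Gs)
    (hO₁ : outT B₁ ∈ Gs) (hI : idT M' ∈ Gs) (P : Bool → ℝ) (X : Bool → (ℝ → ℝ) → ℝ) (a : Bool → ℝ)
    {v zb z2 δ₀ δ₁ : ℝ} (hP : ∀ b, 0 ≤ P b) (hP1 : P true + P false = 1)
    (hX : ∀ b, ∀ F ∈ Gs, |X b F| ≤ P b) (hv : 0 ≤ v) (hv1 : v ≤ 1) (hz : 0 ≤ z2)
    (hzI : |zb - M' * (X true (idT M') + X false (idT M'))| ≤ z2 / M')
    (hzO : ∀ R, 2 ≤ R → X true (outT R) + X false (outT R) ≤ 4 * z2 / R ^ 2)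
    (h0 : ∑ b : Bool, ∑ F ∈ Gs, |X b F - P b * nE (a b) v F| ≤ δ₀)
    (h1 : ∀ b', |X true (gT M (2 * spin b') false) - X false (gT M (2 * spin b') true)| ≤ δ₁) :
    |P true - P false - tanh (zb - v * (P true - P false))|
      + ∑ F ∈ Fs, ∑ b : Bool,
        |X b F - P b * nE (zb - v * (P true - P false) + spin b * v) v F|
      ≤ siteC Fs.card B B₁ M M' * (δ₀ + δ₁) + siteE Fs.card B₁ M M'
        + siteK Fs.card B B₁ M' * z2 := by
  have hall := err_le hFs P X (zb - v * (P true - P false)) v hP hP1 fun b F hF => hX b F (hsub hF)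
  have hp := hP true
  have hq := hP false
  rw [Fintype.sum_bool, ← sum_add_distrib] at h0
  have two : ∀ F ∈ Gs, |X true F - P true * nE (a true) v F| + |X false F - P false * nE (a false) v F|
      ≤ δ₀ := fun F hF => (single_le_sum (f := fun F => |X true F - P true * nE (a true) v F|
        + |X false F - P false * nE (a false) v F|) (fun F _ => by positivity) hF).trans h0
  have two' : ∀ F ∈ Gs, ∀ F' ∈ Gs, |X true F - P true * nE (a true) v F|
      + |X false F' - P false * nE (a false) v F'| ≤ δ₀ := fun F hF F' hF' => by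
    refine le_trans ?_ h0
    rw [sum_add_distrib]
    exact add_le_add (single_le_sum (f := fun F => |X true F - P true * nE (a true) v F|)
        (fun F _ => abs_nonneg _) hF)
      (single_le_sum (f := fun F => |X false F - P false * nE (a false) v F|) (fun F _ => abs_nonneg _) hF')
  have hδ0 : 0 ≤ δ₀ := le_trans (by positivity) (two _ hO)
  have hδ1 : 0 ≤ δ₁ := (abs_nonneg _).trans (h1 true)
  have hM0 : 0 < M := by linarith
  have hs : ∀ s b c, nE c v (gT M s b) = 1 / (3 * M) * nE c v (fun u => clipT M s u * sig b u) :=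
    fun s b c => integral_const_mul _ _
  have gib : ∀ b', |P true * nE (a true) v (fun u => clipT M (2 * spin b') u * sig false u)
      - P false * nE (a false) v (fun u => clipT M (2 * spin b') u * sig true u)| ≤ 3 * M * (δ₀ + δ₁) :=
    fun b' => by
      refine pair_means hM0 ?_ (h1 b')
      rw [← hs, ← hs]
      exact two' _ (hG false b') _ (hG true b')
  have g := gib true
  have g' := gib false
  simp only [spin, if_true, Bool.false_eq_true, if_false, mul_one, mul_neg] at g g'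
  set k : ℝ := (Fs.card : ℝ) with hkd
  have hk : 0 ≤ k := Nat.cast_nonneg _
  have hC : 0 ≤ δ₀ + δ₁ := by linarith
  have e1 : (1 : ℝ) ≤ exp (8 * B₁) := one_le_exp (by linarith)
  rw [siteC, siteE, siteK, ← hkd]
  by_cases hgood : |a true| ≤ B₁ ∧ |a false| ≤ B₁
  · obtain ⟨ha1, ha0⟩ := hgood
    obtain ⟨k1, k2⟩ := gibbs_both hp hq hP1 hv (by linarith) hM0 ha1 ha0 g g'
    have hm := mean_close hp hq hP1 hv hv1 hM' ha1 ha0 hzI (two _ hI)
    set μ := zb - v * (P true - P false) with hμ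
    rw [show zb - (P true * a true + P false * a false)
      = μ - (P true * (a true - v) + P false * (a false + v)) by rw [hμ]; ring] at hm
    set mx := P true * (a true - v) + P false * (a false + v) with hmx
    set D := 3 * M * (δ₀ + δ₁) + 4 * exp (12 * B₁) / M with hD
    have hD0 : 0 ≤ D := by positivity
    have hF := sum_le_sum fun F (hF : F ∈ Fs) => field_gap (hFs F hF) (x₁ := X true F) (x₀ := X false F)
      (a₁ := a true) (a₀ := a false) (v := v) (μ := μ) hp hq hP1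
    rw [sum_add_distrib (f := fun F => |X true F - P true * nE (a true) v F|
      + |X false F - P false * nE (a false) v F|), sum_const, nsmul_eq_mul, ← hkd] at hF
    have hS := (sum_le_sum_of_subset_of_nonneg hsub
      (f := fun F => |X true F - P true * nE (a true) v F| + |X false F - P false * nE (a false) v F|)
      fun F _ _ => by positivity).trans h0
    rw [← hmx] at hF
    have ht : |P true - P false - tanh μ| ≤ (2 + exp (8 * B₁)) * D + |μ - mx| := by
      have := abs_sub_le (P true - P false) (tanh mx) (tanh μ)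
      have := (abs_tanh_sub_le mx μ).trans_eq (abs_sub_comm mx μ)
      linarith
    simp only [Fintype.sum_bool, spin, if_true, Bool.false_eq_true, if_false, one_mul, neg_mul]
    have hEE : exp (8 * B₁) * D = 3 * M * exp (8 * B₁) * (δ₀ + δ₁) + 4 * exp (20 * B₁) / M := by
      rw [hD, show exp (20 * B₁) = exp (8 * B₁) * exp (12 * B₁) by rw [← exp_add]; ring_nf]; ring
    have s2 : 2 * D ≤ 2 * (exp (8 * B₁) * D) := by
      have := le_mul_of_one_le_left hD0 e1; linarith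
    have s3 := mul_le_mul_of_nonneg_left k2 (show 0 ≤ 2 * k by linarith)
    have s4 := mul_le_mul_of_nonneg_left hm (show 0 ≤ 1 + k by linarith)
    have s5 : 0 ≤ (3 + k) * ((M' + 1) * (δ₀ + δ₁) + 2 * (B₁ ^ 2 + 1) / M' + z2 / M') := by positivity
    have s6 : M' * δ₀ ≤ M' * (δ₀ + δ₁) := mul_le_mul_of_nonneg_left (by linarith) (by linarith)
    have s7 := mul_le_mul_of_nonneg_left s6 (show 0 ≤ 1 + k by linarith)
    have s8 : 0 ≤ (4 + 2 * k) * (22 * exp (2 * B) * M) * (δ₀ + δ₁) := by positivity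
    have s9 : 0 ≤ (4 + 2 * k) * (16 / B ^ 2 + 32 * exp (2 * B) / B₁ ^ 2) * z2 := by positivity
    have sa : 0 ≤ exp (8 * B₁) * D := by positivity
    have sb : δ₀ ≤ (1 + k) * (δ₀ + δ₁) :=
      (le_add_of_nonneg_right hδ1).trans (le_mul_of_one_le_left hC (by linarith))
    have sc := congrArg (fun t => (4 + 2 * k) * t) hEE
    have t1 : |P true - P false - tanh μ|
        + ∑ F ∈ Fs, (|X true F - P true * nE (μ + v) v F| + |X false F - P false * nE (μ + -v) v F|)
        ≤ (3 + 2 * k) * (exp (8 * B₁) * D) + (1 + k) * |μ - mx| + δ₀ := by linarith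
    have t2 : (3 + 2 * k) * (exp (8 * B₁) * D) + (1 + k) * |μ - mx| + δ₀
        ≤ (4 + 2 * k) * (exp (8 * B₁) * D) + (4 + 2 * k) * ((M' + 1) * (δ₀ + δ₁)
          + 2 * (B₁ ^ 2 + 1) / M' + z2 / M') := by linarith
    rw [sc] at t2
    refine t1.trans (t2.trans ?_)
    rw [← sub_nonneg]
    refine (add_nonneg s8 s9).trans_eq ?_
    ring
  · refine hall.trans ?_
    have n1 : 0 ≤ 16 / B ^ 2 * z2 := by positivity
    have n2 : 0 ≤ 32 * exp (2 * B) / B₁ ^ 2 * z2 := by positivity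
    have key : 1 ≤ 22 * exp (2 * B) * M * (δ₀ + δ₁) + (16 / B ^ 2 + 32 * exp (2 * B) / B₁ ^ 2) * z2 := by
      rw [add_mul]
      by_cases hboth : B ≤ |a true| ∧ B ≤ |a false|
      · have u1 := big_weight (x := X true (outT B)) (v := v) hB hboth.1 hp
        have u0 := big_weight (x := X false (outT B)) (v := v) hB hboth.2 hq
        have := hzO B hB
        have := two _ hO
        have : 4 * z2 / B ^ 2 ≤ 8 / B ^ 2 * z2 := by
          rw [div_mul_eq_mul_div]; exact div_le_div_of_nonneg_right (by linarith) (sq_nonneg B)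
        have : 16 / B ^ 2 * z2 = 2 * (8 / B ^ 2 * z2) := by ring
        have := le_mul_of_one_le_left hC (one_le_mul_of_one_le_of_one_le
          (one_le_exp (show 0 ≤ 2 * B by linarith)) hM)
        linarith
      · obtain ⟨w1, w0⟩ := other_weight (B := B) hp hq hv (by linarith) hM0 hMB g g'
        rcases not_and_or.1 hgood with h | h
        · have hb : |a false| ≤ B := le_of_not_ge fun h' => hboth ⟨by linarith [not_le.1 h], h'⟩
          have := large_cost (a₀ := a false) hp hq hP1 hB hB₁ hM le_rfl hδ1 (hzO B₁ (hB.trans hB₁))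
            (not_le.1 h).le (two _ hO₁) (w1 hb)
          linarith
        · have hb : |a true| ≤ B := le_of_not_ge fun h' => hboth ⟨h', by linarith [not_le.1 h]⟩
          have := large_cost (a₀ := a true) (δ₀ := δ₀) hq hp (by linarith) hB hB₁ hM le_rfl hδ1
            ((add_comm _ _).trans_le (hzO B₁ (hB.trans hB₁))) (not_le.1 h).le
            ((add_comm _ _).trans_le (two _ hO₁)) (w0 hb)
          linarith
    have hkey := mul_le_mul_of_nonneg_left key (show 0 ≤ 4 + 2 * k by linarith)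
    have r1 : 0 ≤ (4 + 2 * k) * (3 * M * exp (8 * B₁) + M' + 1) * (δ₀ + δ₁) := by positivity
    have r2 : 0 ≤ (4 + 2 * k) * (4 * exp (20 * B₁) / M + 2 * (B₁ ^ 2 + 1) / M') := by positivity
    have r3 : 0 ≤ (4 + 2 * k) * (1 / M') * z2 := by positivity
    linarith

end Vale.Agent.P150.Fast.Ladder
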