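import Vale.Agent.P150.Fast.Cavity.Ladder.Far
import Vale.Agent.P150.Fast.Cavity.Ladder.Site

/-!
The cavity error at one site and one start, in terms of the two errors of the far tests (P150).
-/

open MeasureTheory ProbabilityTheory Real Finset
open scoped Matrix

namespace Vale.Agent.P150.Fast.Ladder

variable {n : ℕ} {β ε κ : ℝ} {d : Dis n} {ν : Conf n → ℝ} {S : Finset (Fin n)}

/-- The tests of a site for the tests `Fs`. -/
noncomputable def siteTests [DecidableEq (ℝ → ℝ)] (Fs : Finset (ℝ → ℝ)) (B B₁ M M' : ℝ) : Finset (ℝ → ℝ) :=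
  Fs ∪ (((univ : Finset (Bool × Bool)).image fun p => gT M (2 * spin p.1) p.2)
    ∪ {outT B, outT B₁, idT M'})

theorem siteTests_test [DecidableEq (ℝ → ℝ)] {Fs : Finset (ℝ → ℝ)} (hFs : ∀ F ∈ Fs, IsTest1 F) {B B₁ M M' : ℝ}
    (hM : 1 ≤ M) (hM' : 1 ≤ M') : ∀ F ∈ siteTests Fs B B₁ M M', IsTest1 F := by
  intro F hF
  simp only [siteTests, mem_union, mem_image, mem_univ, true_and, mem_insert, mem_singleton] at hF
  rcases hF with h | ⟨p, rfl⟩ | rfl | rfl | rfl
  · exact hFs F h
  · exact gT_test hM (by rw [abs_mul, Vale.Agent.P150.abs_spin, abs_two, mul_one]) p.2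
  · exact outT_test B
  · exact outT_test B₁
  · exact idT_test hM'

/-- The cavity error of one site. -/
noncomputable def siteErr (β : ℝ) (d : Dis n) (ν : Conf n → ℝ) (S : Finset (Fin n)) (T : ℕ)
    (Fs : Finset (ℝ → ℝ)) (i : Fin n) (x : Conf n) : ℝ :=
  |farMag β d 0 ν 0 S T x i - tanh ((1 - 0) * farMu β d 0 ν 0 S T x i + (0 : Fin n → ℝ) i)|
    + ∑ F ∈ Fs, ∑ b : Bool,
      |farOp β d 0 ν 0 S T (fun z => if z i = b then F (zField β d z i) else 0) x
        - (1 + spin b * farMag β d 0 ν 0 S T x i) / 2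
          * nE (farMu β d 0 ν 0 S T x i + spin b * ((1 - 0) * farR β d 0 ν 0 S T x))
              (farR β d 0 ν 0 S T x) F|

theorem cavErr_eq (hν : Prior ν) (T : ℕ) (Fs : Finset (ℝ → ℝ)) :
    cavErr β d 0 ν 0 S T Fs
      = (n : ℝ)⁻¹ * ∑ i ∈ Sᶜ, ∑ x, ν x * siteErr β d ν S T Fs i x := by
  simp only [cavErr, siteErr, priorAt_zero' _ hν.sum]
  rw [mul_sum]
  simp only [mul_sum (s := (univ : Finset (Conf n)))]
  rw [sum_comm]
  simp only [← mul_assoc, mul_sum (s := Sᶜ)]
  exact sum_congr rfl fun i _ => sum_congr rfl fun x _ => by ring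

/-- The error of the far tests against a normal law, at one start. -/
noncomputable def err0 (β : ℝ) (d : Dis n) (κ : ℝ) (ν : Conf n → ℝ) (S : Finset (Fin n)) (H' T : ℕ)
    (Gs : Finset (ℝ → ℝ)) (a : ℝ) (i : Fin n) (x : Conf n) : ℝ :=
  ∑ b : Bool, (∑ F ∈ Gs, |far β d ν S T i b F x - pb β d ν S T i b x * win β d κ ν S i b F H' x|
    + pb β d ν S T i b x * (devOf Gs (fun F => win β d κ ν S i b F H' x) (rvar β d ν S T x) + a))

/-- The error of the exchange, at one start. -/
noncomputable def err1 (β : ℝ) (d : Dis n) (ν : Conf n → ℝ) (S : Finset (Fin n)) (T : ℕ) (M : ℝ)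
    (i : Fin n) (x : Conf n) : ℝ :=
  ∑ b' : Bool, |far β d ν S T i true (gT M (2 * spin b') false) x
    - far β d ν S T i false (gT M (2 * spin b') true) x|

/-- The mean square of the coupling field, seen from afar. -/
noncomputable def field2 (β : ℝ) (d : Dis n) (ν : Conf n → ℝ) (S : Finset (Fin n)) (T : ℕ) (i : Fin n)
    (x : Conf n) : ℝ := powOp (nrm β d ν S) T (fun z => zField β d z i ^ 2) x

theorem far_add (T : ℕ) (i : Fin n) (F : ℝ → ℝ) (x : Conf n) :
    far β d ν S T i true F x + far β d ν S T i false F x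
      = powOp (nrm β d ν S) T (obs β d F i) x := by
  have e := congrFun (powOp_lin (nrm β d ν S) T (fun z => onVal i true z * obs β d F i z)
    (fun z => onVal i false z * obs β d F i z) 1 1) x
  simp only [one_mul] at e
  rw [far, far, ← e]
  congr 1
  funext z
  cases hb : z i <;> simp [onVal, hb]

theorem abs_far_le (hd : GoodD β ε d) (hν : Prior ν) (T : ℕ) (i : Fin n) (b : Bool) {F : ℝ → ℝ}
    (hF : IsTest1 F) (x : Conf n) : |far β d ν S T i b F x| ≤ pb β d ν S T i b x := by
  have hK := nrm_psd hd.pd hν.pos S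
  rw [abs_le]
  constructor
  · have h := powOp_mono hK T (f := fun z => (-1) * onVal i b z + 0 * onVal i b z)
      (g := fun z => onVal i b z * obs β d F i z) (fun z => ?_) x
    · rw [powOp_lin] at h; simp only [far, pb]; linarith
    · have := mul_le_mul_of_nonneg_left (abs_le.1 (hF.1 (zField β d z i))).1 (onVal_nonneg i b z)
      simp only [obs]; linarith
  · refine powOp_mono hK T (fun z => ?_) x
    exact mul_le_of_le_one_right (onVal_nonneg i b z) (abs_le.1 (hF.1 _)).2

theorem idT_far (hd : GoodD β ε d) (hν : Prior ν) (T : ℕ) (i : Fin n) {M : ℝ} (hM : 0 < M) (x : Conf n) :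
    |powOp (nrm β d ν S) T (fun z => zField β d z i) x
      - M * powOp (nrm β d ν S) T (obs β d (idT M) i) x| ≤ field2 β d ν S T i x / M := by
  have hK := nrm_psd hd.pd hν.pos S
  have hp := fun z => abs_le.1 (idT_gap hM (zField β d z i))
  have e := congrFun (powOp_lin (nrm β d ν S) T (fun z => zField β d z i) (obs β d (idT M) i) 1 (-M)) x
  have u1 := powOp_mono hK T (f := fun z => 1 * zField β d z i + -M * obs β d (idT M) i z)
    (g := fun z => 1 / M * zField β d z i ^ 2 + 0 * zField β d z i ^ 2)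
    (fun z => by have := (hp z).1; simp only [obs]; rw [one_div_mul_eq_div]; linarith) x
  have u2 := powOp_mono hK T (g := fun z => 1 * zField β d z i + -M * obs β d (idT M) i z)
    (f := fun z => -(1 / M) * zField β d z i ^ 2 + 0 * zField β d z i ^ 2)
    (fun z => by have := (hp z).2; simp only [obs]; rw [neg_mul, one_div_mul_eq_div]; linarith) x
  rw [powOp_lin] at u1 u2
  simp only [powOp_lin] at u1 u2
  rw [field2, abs_le, div_eq_mul_one_div]
  constructor <;> linarith

theorem outT_far (hd : GoodD β ε d) (hν : Prior ν) (T : ℕ) (i : Fin n) {R : ℝ} (hR : 2 ≤ R) (x : Conf n) :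
    powOp (nrm β d ν S) T (obs β d (outT R) i) x ≤ 4 * field2 β d ν S T i x / R ^ 2 := by
  have h := powOp_mono (nrm_psd hd.pd hν.pos S) T (f := obs β d (outT R) i)
    (g := fun z => 4 / R ^ 2 * zField β d z i ^ 2 + 0 * zField β d z i ^ 2)
    (fun z => (outT_le hR _).trans (le_of_eq (by ring))) x
  rw [powOp_lin] at h
  refine h.trans (le_of_eq ?_)
  rw [field2]; ring

/-- The cavity error of a site at one start. -/
theorem siteErr_le [DecidableEq (ℝ → ℝ)] (hd : GoodD β ε d) (hν : Prior ν) (hβ : β ^ 2 ≤ 1)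
    {Fs : Finset (ℝ → ℝ)} (hFs : ∀ F ∈ Fs, IsTest1 F) {B B₁ M M' a : ℝ} (hB : 2 ≤ B) (hB₁ : B ≤ B₁)
    (hM : 1 ≤ M) (hM' : 1 ≤ M') (hMB : 8 * exp (14 * B) ≤ M) (ha : 0 < a) (H' T : ℕ) (i : Fin n)
    (x : Conf n) :
    siteErr β d ν S T Fs i x
      ≤ siteC Fs.card B B₁ M M'
          * (err0 β d κ ν S H' T (siteTests Fs B B₁ M M') a i x + err1 β d ν S T M i x)
        + siteE Fs.card B₁ M M' + siteK Fs.card B B₁ M' * field2 β d ν S T i x := by
  set Gs := siteTests Fs B B₁ M M' with hGs
  have hG := siteTests_test hFs (B := B) (B₁ := B₁) hM hM'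
  have hex := fun b => devOf_exists Gs (fun F => win β d κ ν S i b F H' x) (rvar β d ν S T x) ha
  choose av hav using hex
  set v := rvar β d ν S T x with hv
  have hr := rvar_mem (S := S) hd hν hβ T x
  have hP1 := pb_sum (S := S) hd hν T i x
  have hmag : farMag β d 0 ν 0 S T x i = pb β d ν S T i true x - pb β d ν S T i false x := by
    rw [farMag, farOp_zero β d hν.sum, pb, pb, show (fun z : Conf n => vec z i)
      = fun z => 1 * onVal i true z + (-1) * onVal i false z from
        funext fun z => by cases hb : z i <;> simp [onVal, vec, spin, hb], powOp_lin]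
    ring
  set zb := powOp (nrm β d ν S) T (fun z => zField β d z i) x with hzb
  have hmu : farMu β d 0 ν 0 S T x i = zb - v * (pb β d ν S T i true x - pb β d ν S T i false x) := by
    rw [farMu, farOp_zero β d hν.sum, ← hmag, hv, rvar, hzb]; ring
  have hsite := site_bound (Fs := Fs) (Gs := Gs) hFs subset_union_left hB hB₁ hM hM' hMB
    (fun b b' => mem_union_right _ (mem_union_left _ (mem_image.2 ⟨(b', b), mem_univ _, rfl⟩)))
    (by simp [hGs, siteTests]) (by simp [hGs, siteTests]) (by simp [hGs, siteTests])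
    (fun b => pb β d ν S T i b x) (fun b F => far β d ν S T i b F x) av
    (v := v) (zb := zb) (z2 := field2 β d ν S T i x)
    (δ₀ := err0 β d κ ν S H' T Gs a i x) (δ₁ := err1 β d ν S T M i x)
    (fun b => pb_nonneg hd hν T i b x) hP1 (fun b F hF => abs_far_le hd hν T i b (hG F hF) x) hr.1 hr.2
    (powOp_nonneg (nrm_psd hd.pd hν.pos S) T (fun z => sq_nonneg _) x)
    (by rw [far_add]; exact idT_far hd hν T i (by linarith) x)
    (fun R hR => by rw [far_add]; exact outT_far hd hν T i hR x)
    (sum_le_sum fun b _ => by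
      refine le_trans ?_ (add_le_add le_rfl (mul_le_mul_of_nonneg_left (hav b) (pb_nonneg hd hν T i b x)))
      rw [mul_sum, ← sum_add_distrib]
      refine sum_le_sum fun F _ => (abs_sub_le _ (pb β d ν S T i b x * win β d κ ν S i b F H' x) _).trans
        (add_le_add le_rfl (le_of_eq ?_))
      rw [← mul_sub, abs_mul, abs_of_nonneg (pb_nonneg hd hν T i b x)])
    (fun b' => single_le_sum (f := fun b' => |far β d ν S T i true (gT M (2 * spin b') false) x
      - far β d ν S T i false (gT M (2 * spin b') true) x|) (fun b' _ => abs_nonneg _) (mem_univ b'))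
  refine le_trans (le_of_eq ?_) hsite
  rw [siteErr]
  simp only [hmu, hmag, sub_zero, one_mul, Pi.zero_apply, add_zero]
  refine congrArg₂ (· + ·) rfl (sum_congr rfl fun F _ => sum_congr rfl fun b _ => ?_)
  congr 2
  · rw [farOp_zero β d hν.sum, far]
    congr 1
    funext z
    simp only [onVal, obs]
    split_ifs <;> simp
  · rw [hv, rvar]
    congr 1
    cases b <;> simp only [spin, if_true, Bool.false_eq_true, if_false] <;> linarith

end Vale.Agent.P150.Fast.Ladder
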