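import Vale.Agent.P150.Fast.Cavity.Ladder.Gibbs

/-!
The finitely many tests of the cavity picture at one site, their normal means, and the gap between
the two candidates for the cavity field (P150).
-/

open MeasureTheory ProbabilityTheory Real Finset
open scoped Matrix

namespace Vale.Agent.P150.Fast.Ladder

/-- A test of large fields. -/
noncomputable def outT (B u : ℝ) : ℝ := min 1 (max 0 (|u| - B / 2))

/-- A clipped multiple of the identity. -/
noncomputable def idT (M u : ℝ) : ℝ := max (-1) (min 1 (u / M))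

theorem outT_mem (B u : ℝ) : 0 ≤ outT B u ∧ outT B u ≤ 1 :=
  ⟨le_min zero_le_one (le_max_left _ _), min_le_left _ _⟩

theorem outT_test (B : ℝ) : IsTest1 (outT B) := by
  refine ⟨fun u => by rw [abs_of_nonneg (outT_mem B u).1]; exact (outT_mem B u).2, fun u w => ?_⟩
  refine (abs_min_sub_min_le_max 1 _ 1 _).trans (max_le (by simp) ?_)
  refine (abs_max_sub_max_le_max 0 _ 0 _).trans (max_le (by simp) ?_)
  rw [sub_sub_sub_cancel_right]
  exact abs_abs_sub_abs_le_abs_sub u w

theorem outT_le {B : ℝ} (hB : 2 ≤ B) (u : ℝ) : outT B u ≤ 4 * u ^ 2 / B ^ 2 := by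
  rcases le_total |u| (B / 2) with h | h
  · rw [outT, max_eq_left (by linarith), min_eq_right zero_le_one]; positivity
  · refine (outT_mem B u).2.trans ?_
    rw [one_le_div (by positivity), ← sq_abs u]
    nlinarith [abs_nonneg u]

theorem idT_test {M : ℝ} (hM : 1 ≤ M) : IsTest1 (idT M) := by
  refine ⟨fun u => ?_, fun u w => ?_⟩
  · rw [idT, abs_le]; exact ⟨le_max_left _ _, max_le (by norm_num) (min_le_left _ _)⟩
  · refine (abs_max_sub_max_le_max (-1) _ (-1) _).trans (max_le (by simp) ?_)
    refine (abs_min_sub_min_le_max 1 _ 1 _).trans (max_le (by simp) ?_)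
    rw [← sub_div, abs_div, abs_of_pos (show 0 < M by linarith)]
    exact div_le_self (abs_nonneg _) hM

theorem idT_gap {M : ℝ} (hM : 0 < M) (u : ℝ) : |M * idT M u - u| ≤ u ^ 2 / M := by
  rw [le_div_iff₀ hM, idT]
  rcases le_total |u| M with h | h
  · have h1 : u / M ≤ 1 := (div_le_one hM).2 (le_of_abs_le h)
    have h2 : -1 ≤ u / M := by rw [le_div_iff₀ hM]; linarith [neg_le_of_abs_le h]
    rw [min_eq_right h1, max_eq_right h2, mul_div_cancel₀ _ hM.ne', sub_self, abs_zero, zero_mul]
    exact sq_nonneg u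
  · have h3 : |M * idT M u - u| ≤ |u| := by
      rcases le_total 0 u with h0 | h0
      · rw [abs_of_nonneg h0] at h ⊢
        have h1 : 1 ≤ u / M := (one_le_div hM).2 h
        rw [idT, min_eq_left h1, max_eq_right (by norm_num), mul_one, abs_of_nonpos (by linarith)]
        linarith
      · rw [abs_of_nonpos h0] at h ⊢
        have h1 : u / M ≤ -1 := by rw [div_le_iff₀ hM]; linarith
        rw [idT, min_eq_right (by linarith), max_eq_left h1, mul_neg_one,
          abs_of_nonneg (by linarith)]
        linarith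
    rw [← sq_abs u, pow_two]
    exact mul_le_mul h3 h hM.le (abs_nonneg _)

theorem nE_outT_ge {B : ℝ} (hB : 2 ≤ B) {a : ℝ} (ha : B ≤ |a|) (v : ℝ) :
    1 / 2 ≤ nE a v (outT B) := by
  have hc : Continuous (outT B) := by unfold outT; fun_prop
  have hneg : nE a v (outT B) = ∫ g, outT B (a - √v * g) ∂gaussianReal 0 1 := by
    have h := gaussianReal_map_neg (μ := 0) (v := 1)
    rw [neg_zero] at h
    rw [nE]
    nth_rewrite 1 [← h]
    rw [integral_map (by fun_prop) (by fun_prop : Continuous fun g => outT B (a + √v * g)).aestronglyMeasurable]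
    simp [sub_eq_add_neg]
  have i1 := integrable_nE_of_bdd hc (outT_test B).1 a v
  have i2 : Integrable (fun g => outT B (a - √v * g)) (gaussianReal 0 1) :=
    Integrable.of_bound (by fun_prop : Continuous fun g => outT B (a - √v * g)).aestronglyMeasurable 1
      (.of_forall fun g => (outT_test B).1 _)
  have hp : ∀ g, 1 ≤ outT B (a + √v * g) + outT B (a - √v * g) := fun g => by
    have hb : ∀ u, B ≤ |u| → outT B u = 1 := fun u hu => by
      rw [outT, max_eq_right (by linarith), min_eq_left (by linarith)]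
    have h2 : 2 * |a| ≤ |a + √v * g| + |a - √v * g| := by
      refine le_trans (le_of_eq ?_) (abs_add_le _ _)
      rw [show a + √v * g + (a - √v * g) = 2 * a by ring, abs_mul, abs_two]
    rcases le_total B |a + √v * g| with h | h
    · linarith [hb _ h, (outT_mem B (a - √v * g)).1]
    · linarith [hb _ (show B ≤ |a - √v * g| by linarith), (outT_mem B (a + √v * g)).1]
  have h := integral_mono (integrable_const (1 : ℝ)) (i1.add i2) hp
  rw [integral_add' i1 i2, ← hneg] at h
  simp only [integral_const, probReal_univ, one_smul] at h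
  change 1 ≤ nE a v (outT B) + nE a v (outT B) at h
  linarith

theorem nE_idT {M : ℝ} (hM : 1 ≤ M) (a : ℝ) {v : ℝ} (hv : 0 ≤ v) :
    |M * nE a v (idT M) - a| ≤ 2 * (a ^ 2 + v) / M := by
  have hc : Continuous (idT M) := by unfold idT; fun_prop
  have i1 := (integrable_nE_of_bdd hc (idT_test hM).1 a v).const_mul M
  have i0 : Integrable (fun g : ℝ => g) (gaussianReal 0 1) := (memLp_id_gaussianReal 1).integrable le_rfl
  have i2 : Integrable (fun g : ℝ => g ^ 2) (gaussianReal 0 1) := (memLp_id_gaussianReal 2).integrable_sq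
  have e2 : ∫ g, g ^ 2 ∂gaussianReal 0 1 = 1 := by
    have h := variance_eq_integral (X := id) (μ := gaussianReal 0 1) (by fun_prop)
    simpa using h.symm.trans variance_id_gaussianReal
  have i3 : Integrable (fun g => a + √v * g) (gaussianReal 0 1) :=
    (integrable_const a).add (i0.const_mul √v)
  have e1 : ∫ g, (a + √v * g) ∂gaussianReal 0 1 = a := by
    rw [integral_add (integrable_const a) (i0.const_mul √v), integral_const_mul, integral_id_gaussianReal]
    simp
  rw [nE, ← integral_const_mul]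
  rw [show |∫ g, M * idT M (a + √v * g) ∂gaussianReal 0 1 - a|
      = |∫ g, M * idT M (a + √v * g) ∂gaussianReal 0 1 - ∫ g, (a + √v * g) ∂gaussianReal 0 1| by rw [e1],
    ← integral_sub i1 i3, ← Real.norm_eq_abs]
  refine (norm_integral_le_of_norm_le (((integrable_const (2 * a ^ 2)).add
    (i2.const_mul (2 * v))).div_const M) (ae_of_all _ fun g => ?_)).trans_eq ?_
  · rw [Real.norm_eq_abs]
    refine (idT_gap (by linarith) _).trans (div_le_div_of_nonneg_right ?_ (by linarith))
    simp only [Pi.add_apply]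
    nlinarith [sq_nonneg (a - √v * g), mul_self_sqrt hv]
  · rw [integral_div, integral_add' (f := fun _ => 2 * a ^ 2) (integrable_const _) (i2.const_mul _),
      integral_const_mul (2 * v), e2, integral_const]
    simp [mul_add]

theorem clip_sig_le (b : Bool) (M u : ℝ) :
    clipT M (-(2 * spin b)) u * sig b u ≤ 1 := by
  refine (mul_le_mul_of_nonneg_right (min_le_left _ _) (sig_nonneg b u)).trans (le_of_eq ?_)
  cases b <;> simp only [sig, spin, if_true, Bool.false_eq_true, if_false, neg_mul, one_mul, mul_neg,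
    neg_neg, mul_one, exp_neg, show exp (2 * u) = exp u * exp u by rw [← exp_add]; ring_nf] <;>
    field_simp <;> ring

theorem nE_clip_sig_le {M : ℝ} (hM : 0 ≤ M) (b : Bool) (a v : ℝ) :
    nE a v (fun u => clipT M (-(2 * spin b)) u * sig b u) ≤ 1 := by
  refine (integral_mono_of_nonneg (ae_of_all _ fun g => mul_nonneg (clipT_mem hM _ _).1 (sig_nonneg b _))
    (integrable_const (1 : ℝ)) (ae_of_all _ fun g => clip_sig_le b M _)).trans_eq ?_
  simp

/-- Removing the clip in the four tests. -/
theorem nE_clip_val {v B M : ℝ} (hv : 0 ≤ v) (hvB : v ≤ B) (hM : 0 < M) {a : ℝ} (ha : |a| ≤ B)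
    (b : Bool) : |nE a v (fun u => clipT M (2 * spin b) u * sig b u) - exp (2 * spin b * a + 2 * v)|
      ≤ 4 * exp (12 * B) / M := by
  have h2 : |2 * spin b| = 2 := by rw [abs_mul, Vale.Agent.P150.abs_spin, abs_two, mul_one]
  have e : (fun u => (1 + exp (2 * spin b * u)) * sig b u) = fun u => exp (2 * spin b * u) := by
    funext u
    cases b <;> simp only [sig, spin, if_true, Bool.false_eq_true, if_false, neg_mul, one_mul, mul_neg,
      neg_neg, mul_one, exp_neg, show exp (2 * u) = exp u * exp u by rw [← exp_add]; ring_nf] <;>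
      field_simp <;> ring
  have h := nE_clip (B := 12 * B) hv hM a (2 * spin b) (continuous_sig b) (sig_nonneg b) (sig_le_one b)
    (by rw [h2, ← sq_abs, h2]; linarith)
  rw [e, nE_exp a hv, show (2 * spin b) ^ 2 = 4 by rw [← sq_abs, h2]; norm_num,
    show (4 : ℝ) * v / 2 = 2 * v by ring] at h
  exact h

theorem nE_clip_one {v B M : ℝ} (hv : 0 ≤ v) (hvB : v ≤ B) (hM : 0 < M) {a : ℝ} (ha : |a| ≤ B)
    (b : Bool) : |nE a v (fun u => clipT M (-(2 * spin b)) u * sig b u) - 1|
      ≤ 4 * exp (12 * B) / M := by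
  have h2 : |-(2 * spin b)| = 2 := by
    rw [abs_neg, abs_mul, Vale.Agent.P150.abs_spin, abs_two, mul_one]
  have e : (fun u => (1 + exp (-(2 * spin b) * u)) * sig b u) = fun _ => 1 := by
    funext u
    cases b <;> simp only [sig, spin, if_true, Bool.false_eq_true, if_false, neg_mul, one_mul, mul_neg,
      neg_neg, mul_one, exp_neg, show exp (2 * u) = exp u * exp u by rw [← exp_add]; ring_nf] <;>
      field_simp <;> ring
  have h := nE_clip (B := 12 * B) hv hM a (-(2 * spin b)) (continuous_sig b) (sig_nonneg b)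
    (sig_le_one b) (by rw [h2, ← sq_abs, h2]; linarith)
  rw [e, nE_const] at h
  exact h

theorem exp_gap {x y b : ℝ} (hx : |x| ≤ b) (hy : |y| ≤ b) :
    2 * |x - y| ≤ exp (2 * b) * |exp (2 * x) - exp (2 * y)| := by
  wlog h : y ≤ x generalizing x y
  · rw [abs_sub_comm x, abs_sub_comm (exp (2 * x))]; exact this hy hx (le_of_not_ge h)
  have k := add_one_le_exp (2 * (x - y))
  have e : exp (2 * x) = exp (2 * y) * exp (2 * (x - y)) := by rw [← exp_add]; ring_nf
  have h1 : 1 ≤ exp (2 * b) * exp (2 * y) := by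
    rw [← exp_add]; exact one_le_exp (by linarith [neg_le_of_abs_le hy])
  rw [abs_of_nonneg (by linarith), abs_of_nonneg (by linarith [exp_le_exp.2 (show 2 * y ≤ 2 * x by linarith)]),
    e, show exp (2 * y) * exp (2 * (x - y)) - exp (2 * y) = exp (2 * y) * (exp (2 * (x - y)) - 1) by ring,
    ← mul_assoc]
  exact le_trans (by linarith) (le_mul_of_one_le_left (by linarith) h1)

/-- The two candidates for the cavity field agree where both spins have weight. -/
theorem gibbs_gap {p q μp μm δ b : ℝ} (hp : 0 ≤ p) (hq : 0 ≤ q) (hpq : p + q = 1)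
    (hμp : |μp| ≤ b) (hμm : |μm| ≤ b) (h1 : |p - q * exp (2 * μm)| ≤ δ)
    (h2 : |p * exp (-(2 * μp)) - q| ≤ δ) : p * q * |μp - μm| ≤ exp (4 * b) * δ := by
  have hδ : 0 ≤ δ := (abs_nonneg _).trans h1
  have hb : 0 ≤ b := (abs_nonneg _).trans hμp
  have e1 : (1 : ℝ) ≤ exp (2 * b) := one_le_exp (by linarith)
  have h3 : |p - q * exp (2 * μp)| ≤ exp (2 * b) * δ := by
    have e : p - q * exp (2 * μp) = exp (2 * μp) * (p * exp (-(2 * μp)) - q) := by
      rw [mul_sub, mul_left_comm, ← exp_add]; simp [mul_comm]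
    rw [e, abs_mul, abs_of_pos (exp_pos _)]
    exact mul_le_mul (exp_le_exp.2 (by linarith [le_of_abs_le hμp])) h2 (abs_nonneg _) (exp_pos _).le
  have h4 : q * |exp (2 * μp) - exp (2 * μm)| ≤ 2 * (exp (2 * b) * δ) := by
    rw [show q * |exp (2 * μp) - exp (2 * μm)| = |q * (exp (2 * μp) - exp (2 * μm))| by
      rw [abs_mul, abs_of_nonneg hq]]
    refine le_trans (le_of_eq ?_) ((abs_sub (p - q * exp (2 * μm)) (p - q * exp (2 * μp))).trans
      (show _ ≤ 2 * (exp (2 * b) * δ) by nlinarith))
    congr 1; ring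
  have h5 := mul_le_mul_of_nonneg_left (exp_gap hμp hμm) hq
  have h6 : q * |μp - μm| ≤ exp (2 * b) * (exp (2 * b) * δ) := by
    have := mul_le_mul_of_nonneg_left h4 (exp_pos (2 * b)).le
    linarith
  rw [show exp (4 * b) = exp (2 * b) * exp (2 * b) by rw [← exp_add]; ring_nf, mul_assoc p,
    mul_assoc (exp (2 * b))]
  exact (mul_le_of_le_one_left (mul_nonneg hq (abs_nonneg _)) (by linarith)).trans h6

end Vale.Agent.P150.Fast.Ladder
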